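import Vale.Agent.P042.H365.TLaw
import Vale.Agent.P042.H858.PushZ
import Vale.Agent.P042.H48.Tens

/-!
# P042, block [B] closed at one family of rates

`bhyp_of_meik`: the hypotheses `BHyp` of block [B] from `MEIK` (competitors of density at most
`exp (6 Λ)`), with `Λ ≥ D0 (L + log (card ι * D0)) + 3`.
`bhyp_int`: the same from the multi-coordinate entropy inequality of an integer law, relative to a
base law.
-/

set_option autoImplicit false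
set_option linter.unusedSectionVars false

namespace Vale.Agent.P042.H742

open Finset Vale.Agent.P042.H461 Vale.Agent.P042.H416 Vale.Agent.P042.H678
  Vale.Agent.P042.H858 Vale.Agent.P042.H365
open Vale.Agent.P042.H779 (marg m1)
open Vale.Agent.P042.H599 (cm Law)

variable {ι : Type*} [Fintype ι] [DecidableEq ι] {V : ι → Type*} [∀ i, Fintype (V i)]
  [∀ i, DecidableEq (V i)] {lam : ∀ i, V i → ℝ} {mu : (∀ i, V i) → ℝ} {t M : ι → ℝ}

theorem MEIK.mono {ε ε' e1 e1' K : ℝ} (h : MEIK t ε e1 K mu) (hmu : IsLaw mu) (hK : 0 ≤ K)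
    (hε : ε ≤ ε') (he : e1 ≤ e1') : MEIK t ε' e1' K mu := by
  intro nu hnu hle
  have h1 := h nu hnu hle
  have h2 : 0 ≤ KL nu mu := KL_nonneg hnu.1 hmu.1 (by rw [hnu.2, hmu.2]) (AC_of_le hnu.1 hle)
  have h3 := mul_le_mul_of_nonneg_right hε h2
  linarith

/-- `MEIr` from `MEIK` -/
theorem meir_of_meik {ε e1 K κ δ : ℝ} (hmu : IsLaw mu) (hδ : 0 < δ) (hK : δ⁻¹ ≤ K)
    (he : e1 ≤ ε * κ) (h : MEIK t ε e1 K mu) : MEIr t ε κ δ mu := by
  intro E hE0 hE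
  have h1 := h _ (isLaw_res hmu.1 hE0) (fun y => by
    unfold res
    split_ifs
    · rw [div_eq_mul_inv, mul_comm]
      refine mul_le_mul_of_nonneg_right ?_ (hmu.1 y)
      exact (inv_anti₀ hδ hE).trans hK
    · exact mul_nonneg ((inv_nonneg.2 hδ.le).trans hK) (hmu.1 y))
  rw [KL_res hmu.1 hE0] at h1
  linarith

/-- **the hypotheses of block [B] from `MEIK`** -/
theorem bhyp_of_meik {L Λ ε e1 : ℝ} {D0 : ℕ} (hmu : IsLaw mu) (hR : Ref lam L)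
    (hI : I1M lam M D0 mu) (hM : ∀ i, 1 ≤ M i) (ht0 : ∀ i, 0 < t i) (ht1 : ∀ i, t i ≤ 1)
    (hL : 0 ≤ L) (hD : 1 ≤ D0)
    (hΛ : D0 * (L + Real.log (Fintype.card ι * D0)) + 3 ≤ Λ)
    (hmei : MEIK t ε e1 (Real.exp (6 * Λ)) mu) (hε : 0 ≤ ε) (he1 : 0 ≤ e1)
    (hs : 704 * ε * Λ ≤ 1) (hsm : D0 * (e1 + 6 * Λ * Real.exp (-(3 * Λ))) ≤ ε * Λ) :
    BHyp lam mu t M L Λ ε Λ (Real.exp (-(3 * Λ))) D0 := by
  have hlog : 0 ≤ Real.log (Fintype.card ι * D0) := by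
    rw [← Nat.cast_mul]
    exact Real.log_natCast_nonneg _
  have hΛ3 : 3 ≤ Λ := by
    have h4 : 0 ≤ (D0 : ℝ) * (L + Real.log (Fintype.card ι * D0)) := by positivity
    linarith
  have hδ : 0 < Real.exp (-(3 * Λ)) := Real.exp_pos _
  have hKδ : Real.exp (6 * Λ) * Real.exp (-(3 * Λ)) = Real.exp (3 * Λ) := by
    rw [← Real.exp_add]
    congr 1
    ring
  have h6 : 0 ≤ 6 * Λ * Real.exp (-(3 * Λ)) := by positivity
  have hquot : Real.log (Real.exp (6 * Λ)) / (Real.exp (6 * Λ) * Real.exp (-(3 * Λ))) =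
      6 * Λ * Real.exp (-(3 * Λ)) := by
    rw [hKδ, Real.log_exp, Real.exp_neg, div_eq_mul_inv]
  have hD1 : (1 : ℝ) ≤ D0 := by exact_mod_cast hD
  refine ⟨hmu, hR, hI, hM, ht0, ht1, hε, by linarith, hL, hΛ, fun N hN => ?_, ?_, le_rfl, ?_, hD⟩
  · refine Vale.Agent.P042.H48.Tens (fun i => (ht0 i).le) ht1 hε he1 hδ ?_ hmu ?_ hmei
    · rw [hKδ]
      exact Real.exp_le_exp.2 (by linarith)
    · rw [hquot]
      have hN' : (N : ℝ) ≤ D0 := by exact_mod_cast hN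
      exact (mul_le_mul_of_nonneg_right hN' (by linarith)).trans hsm
  · refine meir_of_meik hmu hδ ?_ ?_ hmei
    · rw [← Real.exp_neg, neg_neg]
      exact Real.exp_le_exp.2 (by linarith)
    · have h7 : 1 * (e1 + 6 * Λ * Real.exp (-(3 * Λ))) ≤
          D0 * (e1 + 6 * Λ * Real.exp (-(3 * Λ))) :=
        mul_le_mul_of_nonneg_right hD1 (by linarith)
      linarith
  · have h8 : 176 * ε * (Λ + 3 * Λ) = 704 * ε * Λ := by ring
    rw [h8]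
    exact hs

/-- numbers -/
theorem exp_small {Λ : ℝ} (h : 10 ≤ Λ) : 4224 * Λ ^ 2 * Real.exp (-(3 * Λ)) ≤ 1 / 25 := by
  rw [Real.exp_neg, mul_inv_le_iff₀ (Real.exp_pos _)]
  have h3 : (3 * Λ) ^ 9 / 362880 ≤ Real.exp (3 * Λ) := by
    have := Real.pow_div_factorial_le_exp (3 * Λ) (by linarith) 9
    have h2 : ((Nat.factorial 9 : ℕ) : ℝ) = 362880 := by norm_num [Nat.factorial]
    rwa [h2] at this
  have h4 : (10000000 : ℝ) ≤ Λ ^ 7 := by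
    have := pow_le_pow_left₀ (by norm_num) h 7
    norm_num at this
    exact this
  have h5 : 4224 * Λ ^ 2 ≤ 1 / 25 * ((3 * Λ) ^ 9 / 362880) := by
    have h6 : 1 / 25 * ((3 * Λ) ^ 9 / 362880) = (19683 / 9072000) * (Λ ^ 7 * Λ ^ 2) := by ring
    rw [h6]
    have h7 : 0 ≤ Λ ^ 2 := by positivity
    have h8 := mul_le_mul_of_nonneg_right h4 h7
    linarith
  linarith

/-- the numerical conditions for `ε := 1 / (704 Λ)` -/
theorem num_ok {Λ εs a q0 L : ℝ} {D0 : ℕ} {n : ℕ} (hL : 1 ≤ L) (hΛ10 : 10 ≤ Λ)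
    (hΛ : D0 * (L + Real.log (n * D0)) + 3 ≤ Λ) (haL : a ≤ L) (hεs : 0 ≤ εs)
    (hn : 20000 * εs * Λ ^ 2 ≤ 1) (hq : 1408 * q0 * Λ ≤ 1) :
    2 * (3 + 6 * Λ) * εs + q0 ≤ 1 / (704 * Λ) ∧
      D0 * (4 * (3 + 6 * Λ) * εs * a + 6 * Λ * Real.exp (-(3 * Λ))) ≤ 1 / (704 * Λ) * Λ := by
  have hΛ0 : 0 < Λ := by linarith
  have hlog : 0 ≤ Real.log (n * D0) := by
    rw [← Nat.cast_mul]
    exact Real.log_natCast_nonneg _
  have hD0 : (0 : ℝ) ≤ D0 := Nat.cast_nonneg _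
  have hDL : D0 * L ≤ Λ := by
    have h1 : D0 * L ≤ D0 * (L + Real.log (n * D0)) :=
      mul_le_mul_of_nonneg_left (by linarith) hD0
    linarith
  have hDΛ : (D0 : ℝ) ≤ Λ := by
    have h1 : (D0 : ℝ) * 1 ≤ D0 * L := mul_le_mul_of_nonneg_left hL hD0
    linarith
  have hDa : D0 * a ≤ Λ := (mul_le_mul_of_nonneg_left haL hD0).trans hDL
  constructor
  · rw [le_div_iff₀ (by positivity)]
    have h1 : (2 * (3 + 6 * Λ) * εs + q0) * (704 * Λ) =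
        4224 * εs * Λ + 8448 * (εs * Λ ^ 2) + 704 * q0 * Λ := by ring
    have h2 : εs * Λ * 10 ≤ εs * Λ ^ 2 := by
      have := mul_le_mul_of_nonneg_left hΛ10 (mul_nonneg hεs hΛ0.le)
      nlinarith
    rw [h1]
    nlinarith
  · have h0 : 1 / (704 * Λ) * Λ = 1 / 704 := by field_simp
    rw [h0]
    have h1 := exp_small hΛ10
    have h2 : D0 * (6 * Λ * Real.exp (-(3 * Λ))) ≤ Λ * (6 * Λ * Real.exp (-(3 * Λ))) :=
      mul_le_mul_of_nonneg_right hDΛ (by positivity)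
    have h3 : D0 * (4 * (3 + 6 * Λ) * εs * a) ≤ 4 * (3 + 6 * Λ) * εs * Λ := by
      have h4 : D0 * (4 * (3 + 6 * Λ) * εs * a) = 4 * (3 + 6 * Λ) * εs * (D0 * a) := by ring
      rw [h4]
      exact mul_le_mul_of_nonneg_left hDa (by positivity)
    have h5 : 4 * (3 + 6 * Λ) * εs * Λ = 12 * (εs * Λ) + 24 * (εs * Λ ^ 2) := by ring
    have h6 : εs * Λ * 10 ≤ εs * Λ ^ 2 := by
      have := mul_le_mul_of_nonneg_left hΛ10 (mul_nonneg hεs hΛ0.le)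
      nlinarith
    have h7 : D0 * (4 * (3 + 6 * Λ) * εs * a + 6 * Λ * Real.exp (-(3 * Λ))) =
        D0 * (4 * (3 + 6 * Λ) * εs * a) + D0 * (6 * Λ * Real.exp (-(3 * Λ))) := by ring
    rw [h7]
    nlinarith

/-- **block [B] for the image of an integer law**, from the multi-coordinate entropy inequality of
the integer law `mu` relative to the base law `la` -/
theorem bhyp_int {q : ι → ℕ} (hq : ∀ i, 0 < q i)
    (hc : Pairwise fun i j => (q i).Coprime (q j)) {r : ∀ i, ℕ → V i}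
    (hr : ∀ i n m, r i n = r i m ↔ n ≡ m [MOD q i]) {nu0 la : ℕ → ℝ} {A M0 : ℕ}
    (hmu : Law nu0 A M0) (hla : Law la A M0) (hac : ∀ i < M0, la (A + i) = 0 → nu0 (A + i) = 0)
    (ht0 : ∀ i, 0 < t i) (ht1 : ∀ i, t i ≤ 1) {B : ℕ} {L Λ εs a q0 : ℝ} {D0 : ℕ}
    (hq0 : ∑ R with ¬ ∏ i ∈ R, q i ≤ B, bw t R ≤ q0)
    (H : ∀ nu : ℕ → ℝ, Law nu A M0 → (∀ i < M0, nu (A + i) ≤ Real.exp (6 * Λ) * nu0 (A + i)) →
      ∑ R : Finset ι with ∏ i ∈ R, q i ≤ B, bw t R * klr nu la A M0 (∏ i ∈ R, q i) ≤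
        εs * (kli nu nu0 A M0 + a))
    (hR : Ref lam L) (hI : I1M lam M D0 (pf r nu0 A M0)) (hM : ∀ i, 1 ≤ M i)
    (hL : 1 ≤ L) (hD : 1 ≤ D0) (hΛ10 : 10 ≤ Λ)
    (hΛ : D0 * (L + Real.log (Fintype.card ι * D0)) + 3 ≤ Λ) (ha : 0 ≤ a) (haL : a ≤ L)
    (hεs : 0 ≤ εs) (hn : 20000 * εs * Λ ^ 2 ≤ 1) (hq' : 1408 * q0 * Λ ≤ 1) :
    BHyp lam (pf r nu0 A M0) t M L Λ (1 / (704 * Λ)) Λ (Real.exp (-(3 * Λ))) D0 := by
  have hΛ0 : 0 < Λ := by linarith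
  have h1 := MEIK_int hq hc hr hmu hla hac (fun i => (ht0 i).le) ht1
    (K := Real.exp (6 * Λ)) (Real.one_le_exp (by positivity)) hq0 H
  rw [Real.log_exp] at h1
  have hlaw : IsLaw (pf r nu0 A M0) := isLaw_pf r hmu
  obtain ⟨h2, h3⟩ := num_ok (n := Fintype.card ι) hL hΛ10 hΛ haL hεs hn hq'
  have h4 : 0 ≤ 4 * (3 + 6 * Λ) * εs * a := by positivity
  have h5 := h1.mono hlaw (Real.exp_pos _).le h2 le_rfl
  refine bhyp_of_meik hlaw hR hI hM ht0 ht1 (by linarith) hD hΛ h5 (by positivity) h4 ?_ h3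
  have : 704 * (1 / (704 * Λ)) * Λ = 1 := by field_simp
  exact this.le

end Vale.Agent.P042.H742
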