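import Vale.Agent.P042.H742.BOo

/-!
# P042, block [B] with one extra coordinate, from the entropy inequality of an integer law

`bhyp_int_o`: any index type with a distinguished coordinate `o`.
`bhyp_int_opt`: index type `Option ι`, the family lives on `ι`.
-/

set_option autoImplicit false
set_option linter.unusedSectionVars false

namespace Vale.Agent.P042.H742

open Finset Vale.Agent.P042.H461 Vale.Agent.P042.H416 Vale.Agent.P042.H678
  Vale.Agent.P042.H858 Vale.Agent.P042.H365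
open Vale.Agent.P042.H779 (marg m1)
open Vale.Agent.P042.H599 (cm Law)

section gen

variable {ι : Type*} [Fintype ι] [DecidableEq ι] {V : ι → Type*} [∀ i, Fintype (V i)]
  [∀ i, DecidableEq (V i)] {lam : ∀ i, V i → ℝ} {t M : ι → ℝ}

/-- **block [B] for the image of an integer law, with a coordinate `o` that no family contains** -/
theorem bhyp_int_o (o : ι) {q : ι → ℕ} (hq : ∀ i, 0 < q i)
    (hc : Pairwise fun i j => (q i).Coprime (q j)) {r : ∀ i, ℕ → V i}
    (hr : ∀ i n m, r i n = r i m ↔ n ≡ m [MOD q i]) {nu0 la : ℕ → ℝ} {A M0 : ℕ}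
    (hmu : Law nu0 A M0) (hla : Law la A M0) (hac : ∀ i < M0, la (A + i) = 0 → nu0 (A + i) = 0)
    (ht0 : ∀ i, 0 < t i) (ht1 : ∀ i, t i ≤ 1) {B : ℕ} {L Λ εs a q0 : ℝ} {D0 : ℕ}
    (hq0 : ∑ R with (¬ ∏ i ∈ R, q i ≤ B ∧ o ∉ R), bw (Function.update t o 0) R ≤ q0)
    (H : ∀ nu : ℕ → ℝ, Law nu A M0 → (∀ i < M0, nu (A + i) ≤ Real.exp (6 * Λ) * nu0 (A + i)) →
      ∑ R : Finset ι with (∏ i ∈ R, q i ≤ B ∧ o ∉ R), bw (Function.update t o 0) R *
        klr nu la A M0 (∏ i ∈ R, q i) ≤ εs * (kli nu nu0 A M0 + a))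
    (hR : Ref lam L) (hI : I1M lam M D0 (pf r nu0 A M0)) (hM : ∀ i, 1 ≤ M i)
    (hL : 1 ≤ L) (hD : 1 ≤ D0) (hΛ10 : 10 ≤ Λ)
    (hΛ : D0 * (L + Real.log (Fintype.card ι * D0)) + 3 ≤ Λ) (ha : 0 ≤ a) (haL : a ≤ L)
    (hεs : 0 ≤ εs) (hn : 20000 * εs * Λ ^ 2 ≤ 1) (hq' : 1408 * (q0 + t o) * Λ ≤ 1) :
    BHyp lam (pf r nu0 A M0) t M L Λ (1 / (704 * Λ)) Λ (Real.exp (-(3 * Λ))) D0 := by
  classical
  have hΛ0 : 0 < Λ := by linarith
  have htu0 : ∀ i, 0 ≤ Function.update t o 0 i := fun i => by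
    by_cases h : i = o
    · subst h; rw [Function.update_self]
    · rw [Function.update_of_ne h]; exact (ht0 i).le
  have htu1 : ∀ i, Function.update t o 0 i ≤ 1 := fun i => by
    by_cases h : i = o
    · subst h; rw [Function.update_self]; norm_num
    · rw [Function.update_of_ne h]; exact ht1 i
  have hH : ∀ nu : ℕ → ℝ, Law nu A M0 → (∀ i < M0, nu (A + i) ≤
        Real.exp (6 * Λ) * nu0 (A + i)) →
      ∑ R : Finset ι with ∏ i ∈ R, q i ≤ B, bw (Function.update t o 0) R *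
        klr nu la A M0 (∏ i ∈ R, q i) ≤ εs * (kli nu nu0 A M0 + a) := by
    intro nu hnu hle
    refine le_trans (le_of_eq ?_) (H nu hnu hle)
    rw [← Finset.filter_filter]
    symm
    refine Finset.sum_filter_of_ne fun R _ h => ?_
    intro ho
    exact h (by rw [bw_upd_zero ho, zero_mul])
  have hq0' : ∑ R with ¬ ∏ i ∈ R, q i ≤ B, bw (Function.update t o 0) R ≤ q0 := by
    refine le_trans (le_of_eq ?_) hq0
    rw [← Finset.filter_filter]
    symm
    refine Finset.sum_filter_of_ne fun R _ h => ?_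
    intro ho
    exact h (bw_upd_zero ho)
  have h1 := MEIK_int hq hc hr hmu hla hac htu0 htu1 (K := Real.exp (6 * Λ))
    (Real.one_le_exp (by positivity)) hq0' hH
  rw [Real.log_exp] at h1
  have hlaw : IsLaw (pf r nu0 A M0) := isLaw_pf r hmu
  have h2 := MEIK.upd hlaw (fun i => (ht0 i).le) ht1 h1
  obtain ⟨h3, h4⟩ := num_ok (n := Fintype.card ι) (q0 := q0 + t o) hL hΛ10 hΛ haL hεs hn hq'
  have h5 : 0 ≤ 4 * (3 + 6 * Λ) * εs * a := by positivity
  have h6 := h2.mono hlaw (Real.exp_pos _).le (e1' := 4 * (3 + 6 * Λ) * εs * a)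
    (ε' := 1 / (704 * Λ)) (by linarith) le_rfl
  refine bhyp_of_meik hlaw hR hI hM ht0 ht1 (by linarith) hD hΛ h6 (by positivity) h5 ?_ h4
  have : 704 * (1 / (704 * Λ)) * Λ = 1 := by field_simp
  exact this.le

end gen

section opt

variable {ι : Type*} [Fintype ι] [DecidableEq ι]

theorem compl_map_some (R : Finset ι) :
    (R.map Function.Embedding.some)ᶜ = insert none (Rᶜ.map Function.Embedding.some) := by
  ext x
  cases x with
  | none => simp
  | some i => simp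

theorem bw_map_some (t : Option ι → ℝ) (R : Finset ι) :
    bw (Function.update t none 0) (R.map Function.Embedding.some) =
      bw (fun i => t (some i)) R := by
  unfold bw
  rw [compl_map_some, Finset.prod_insert (by simp), Finset.prod_map, Finset.prod_map,
    Function.update_self, sub_zero, one_mul]
  congr 1

theorem eq_map_some {R : Finset (Option ι)} (h : none ∉ R) :
    (eraseNone R).map Function.Embedding.some = R := by
  rw [map_some_eraseNone, Finset.erase_eq_of_notMem h]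

/-- sums over the sets that do not contain `none` -/
theorem sum_not_none (P : ℕ → Prop) [DecidablePred P] (q : Option ι → ℕ)
    (F : Finset (Option ι) → ℝ) :
    ∑ R : Finset (Option ι) with (P (∏ i ∈ R, q i) ∧ none ∉ R), F R =
      ∑ R : Finset ι with P (∏ i ∈ R, q (some i)), F (R.map Function.Embedding.some) := by
  symm
  refine Finset.sum_bij (fun R _ => R.map Function.Embedding.some) ?_ ?_ ?_ ?_
  · intro R hR
    rw [Finset.mem_filter] at hR ⊢
    refine ⟨Finset.mem_univ _, ?_, by simp⟩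
    rw [Finset.prod_map]
    exact hR.2
  · intro R _ R' _ h
    exact Finset.map_injective _ h
  · intro R hR
    rw [Finset.mem_filter] at hR
    refine ⟨eraseNone R, ?_, eq_map_some hR.2.2⟩
    rw [Finset.mem_filter]
    refine ⟨Finset.mem_univ _, ?_⟩
    have h1 := hR.2.1
    rw [← eq_map_some hR.2.2, Finset.prod_map] at h1
    exact h1
  · intro R _
    rfl

variable {V : Option ι → Type*} [∀ i, Fintype (V i)]
  [∀ i, DecidableEq (V i)] {lam : ∀ i, V i → ℝ} {t M : Option ι → ℝ}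

/-- **block [B] for the image of an integer law on `Option ι`**: the family lives on `ι` -/
theorem bhyp_int_opt {q : Option ι → ℕ} (hq : ∀ i, 0 < q i)
    (hc : Pairwise fun i j => (q i).Coprime (q j)) {r : ∀ i, ℕ → V i}
    (hr : ∀ i n m, r i n = r i m ↔ n ≡ m [MOD q i]) {nu0 la : ℕ → ℝ} {A M0 : ℕ}
    (hmu : Law nu0 A M0) (hla : Law la A M0) (hac : ∀ i < M0, la (A + i) = 0 → nu0 (A + i) = 0)
    (ht0 : ∀ i, 0 < t i) (ht1 : ∀ i, t i ≤ 1) {B : ℕ} {L Λ εs a q0 : ℝ} {D0 : ℕ}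
    (hq0 : ∑ R : Finset ι with ¬ ∏ i ∈ R, q (some i) ≤ B, bw (fun i => t (some i)) R ≤ q0)
    (H : ∀ nu : ℕ → ℝ, Law nu A M0 → (∀ i < M0, nu (A + i) ≤ Real.exp (6 * Λ) * nu0 (A + i)) →
      ∑ R : Finset ι with ∏ i ∈ R, q (some i) ≤ B, bw (fun i => t (some i)) R *
        klr nu la A M0 (∏ i ∈ R, q (some i)) ≤ εs * (kli nu nu0 A M0 + a))
    (hR : Ref lam L) (hI : I1M lam M D0 (pf r nu0 A M0)) (hM : ∀ i, 1 ≤ M i)
    (hL : 1 ≤ L) (hD : 1 ≤ D0) (hΛ10 : 10 ≤ Λ)
    (hΛ : D0 * (L + Real.log (Fintype.card (Option ι) * D0)) + 3 ≤ Λ) (ha : 0 ≤ a) (haL : a ≤ L)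
    (hεs : 0 ≤ εs) (hn : 20000 * εs * Λ ^ 2 ≤ 1) (hq' : 1408 * (q0 + t none) * Λ ≤ 1) :
    BHyp lam (pf r nu0 A M0) t M L Λ (1 / (704 * Λ)) Λ (Real.exp (-(3 * Λ))) D0 := by
  refine bhyp_int_o none hq hc hr hmu hla hac ht0 ht1 (B := B) ?_ ?_ hR hI hM hL hD hΛ10 hΛ ha
    haL hεs hn hq'
  · rw [sum_not_none (fun n => ¬ n ≤ B) q]
    refine le_trans (le_of_eq (Finset.sum_congr rfl fun R _ => ?_)) hq0
    exact bw_map_some t R
  · intro nu hnu hle
    rw [sum_not_none (fun n => n ≤ B) q]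
    refine le_trans (le_of_eq (Finset.sum_congr rfl fun R _ => ?_)) (H nu hnu hle)
    rw [bw_map_some, Finset.prod_map]
    rfl

end opt

end Vale.Agent.P042.H742
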