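import Vale.Agent.P042.H92.PDef
import Vale.Agent.P042.H284.Oo
import Vale.Agent.P042.H858.Lift

/-!
# P042: forgetting the super-modulus

`plaw_some`, `ppair_some`: the hypotheses on one law (pair of laws) with a super-modulus at `none`
give the hypotheses on the ordinary law `push rs mu`.
-/

set_option autoImplicit false
set_option linter.unusedSectionVars false

namespace Vale.Agent.P042.H742

open Finset Vale.Agent.P042.H461 Vale.Agent.P042.H416 Vale.Agent.P042.H92
open Vale.Agent.P042.H284 (rs)
open Vale.Agent.P042.H779 (marg m1 IsProb)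
open Vale.Agent.P042.H779.Ab (pw gdw ce)
open Vale.Agent.P042.H779.Ab.Ll (len)
open Vale.Agent.P042.H482 (mi)

universe u1 u2

section opt

variable {ι : Type u1} [Fintype ι] [DecidableEq ι] {V : Option ι → Type u2} [∀ i, Fintype (V i)]
  [∀ i, DecidableEq (V i)]

/-- extension by a value at the extra coordinate -/
def exo (a : V none) (x : ∀ i : ι, V (some i)) : ∀ i, V i := fun i =>
  match i with
  | none => a
  | some i => x i

@[simp] theorem exo_none (a : V none) (x : ∀ i : ι, V (some i)) : exo a x none = a := rfl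

@[simp] theorem exo_some (a : V none) (x : ∀ i : ι, V (some i)) (i : ι) :
    exo a x (some i) = x i := rfl

theorem rs_exo (a : V none) (x : ∀ i : ι, V (some i)) : rs (exo a x) = x := rfl

theorem ball_some {A : Finset ι} {q : Option ι → Prop} :
    (∀ i ∈ A.map Function.Embedding.some, q i) ↔ ∀ i ∈ A, q (some i) := by
  simp only [Finset.mem_map, Function.Embedding.some_apply, forall_exists_index, and_imp,
    forall_apply_eq_imp_iff₂]

theorem sum_rs (mu : (∀ i, V i) → ℝ) (A : Finset ι) (a : V none) (x : ∀ i : ι, V (some i))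
    (F : (∀ i : ι, V (some i)) → ℝ) :
    (∑ y : ∀ i : ι, V (some i), if (∀ i ∈ A, y i = x i) then push rs mu y * F y else 0) =
      ∑ y, if (∀ i ∈ A.map Function.Embedding.some, y i = exo a x i) then mu y * F (rs y)
        else 0 := by
  have h1 : ∀ y : ∀ i : ι, V (some i),
      (if (∀ i ∈ A, y i = x i) then push rs mu y * F y else 0) =
      push rs mu y * (if (∀ i ∈ A, y i = x i) then F y else 0) := fun y => by
    split_ifs <;> simp
  rw [Finset.sum_congr rfl fun y _ => h1 y, sum_push]
  refine Finset.sum_congr rfl fun y _ => ?_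
  have h2 : (∀ i ∈ A.map Function.Embedding.some, y i = exo a x i) ↔ ∀ i ∈ A, rs y i = x i :=
    ball_some
  by_cases h : ∀ i ∈ A, rs y i = x i
  · rw [if_pos h, if_pos (h2.2 h)]
  · rw [if_neg h, if_neg fun h3 => h (h2.1 h3), mul_zero]

theorem marg_rs (mu : (∀ i, V i) → ℝ) (A : Finset ι) (a : V none) (x : ∀ i : ι, V (some i)) :
    marg (push rs mu) A x = marg mu (A.map Function.Embedding.some) (exo a x) := by
  have h := sum_rs mu A a x fun _ => 1
  simp only [mul_one] at h
  exact h

theorem m1_rs (mu : (∀ i, V i) → ℝ) (i : ι) (b : V (some i)) :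
    m1 (push rs mu) i b = m1 mu (some i) b := by
  unfold m1
  have h1 : ∀ y : ∀ i : ι, V (some i), (if y i = b then push rs mu y else 0) =
      push rs mu y * (if y i = b then 1 else 0) := fun y => by
    split_ifs <;> simp
  rw [Finset.sum_congr rfl fun y _ => h1 y, sum_push]
  refine Finset.sum_congr rfl fun y _ => ?_
  unfold rs
  split_ifs <;> simp

theorem ce_rs (mu : (∀ i, V i) → ℝ) (A : Finset ι) (a : V none) (f : (∀ i : ι, V (some i)) → ℝ)
    (x : ∀ i : ι, V (some i)) :
    ce (push rs mu) A f x =
      ce mu (A.map Function.Embedding.some) (fun y => f (rs y)) (exo a x) := by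
  unfold ce
  rw [sum_rs mu A a x f, marg_rs mu A a x]

theorem mi_rs (mu : (∀ i, V i) → ℝ) (A : Finset ι) (a : V none) (f : (∀ i : ι, V (some i)) → ℝ)
    (i : ι) (x : ∀ i : ι, V (some i)) (b : V (some i)) :
    mi (push rs mu) A f i x b =
      mi mu (A.map Function.Embedding.some) (fun y => f (rs y)) (some i) (exo a x) b :=
  ce_rs mu A a (fun y => if y i = b then f y else 0) x

theorem lw_map (lam : ∀ i, V i → ℝ) (A : Finset ι) (x : ∀ i, V i) :
    lw lam (A.map Function.Embedding.some) x = lw (fun i => lam (some i)) A (rs x) := by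
  unfold lw
  rw [Finset.prod_map]
  rfl

theorem gdw_rs (w : ∀ i, V i → ℝ) (mu : (∀ i, V i) → ℝ) (A : Finset ι) (a : V none)
    (x : ∀ i : ι, V (some i)) :
    gdw (fun i => w (some i)) (push rs mu) A x =
      gdw w mu (A.map Function.Embedding.some) (exo a x) := by
  unfold gdw
  rw [marg_rs mu A a x, Finset.prod_map]
  rfl

theorem len_map (ℓ : Option ι → ℝ) (A : Finset ι) :
    len ℓ (A.map Function.Embedding.some) = len (fun i => ℓ (some i)) A := by
  unfold len
  rw [Finset.sum_map]
  rfl

/-- **the truncated entropy inequality of the ordinary law** -/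
theorem eic_some {w : ∀ i, V i → ℝ} {mu : (∀ i, V i) → ℝ} {ok : Finset (Option ι) → Prop}
    {lam : Option ι → ℝ} {cost : Finset (Option ι) → ℝ} {δ : ℝ}
    (h : H104.EIc w mu ok lam cost δ) (h0 : lam none = 0) (a : V none) :
    H104.EIc (fun i => w (some i)) (push rs mu) (fun A => ok (A.map Function.Embedding.some))
      (fun i => lam (some i)) (fun A => cost (A.map Function.Embedding.some)) δ := by
  intro Q hQ x hx f hf0 hf1 hf
  have h1 := h (Q.map Function.Embedding.some) hQ (exo a x)
    (by rw [← marg_rs mu Q a x]; exact hx) (fun y => f (rs y)) (fun y => hf0 _) (fun y => hf1 _)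
    (by rw [← ce_rs mu Q a f x]; exact hf)
  rw [gdw_rs w mu Q a x, ce_rs mu Q a (fun y => f y * Real.log (f y)) x]
  refine le_trans (le_of_eq ?_) h1
  have h2 : (univ : Finset (Option ι)) \ Q.map Function.Embedding.some =
      Finset.insertNone (univ \ Q) := by
    ext i
    cases i <;> simp
  have h3 : ∀ F : Option ι → ℝ, F none = 0 →
      ∑ i ∈ Finset.insertNone (univ \ Q), F i = ∑ i ∈ univ \ Q, F (some i) := by
    intro F hF
    rw [Finset.sum_insertNone, hF, zero_add]
  rw [h2, h3 _ (by rw [h0, zero_mul])]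
  refine Finset.sum_congr rfl fun i _ => ?_
  congr 1
  refine Finset.sum_congr rfl fun b _ => ?_
  rw [mi_rs mu Q a f i x b]

end opt

section mei

variable {ι : Type u1} [Fintype ι] [DecidableEq ι]

theorem bw_map_emb (t : Option ι → ℝ) (h0 : t none = 0) (R : Finset ι) :
    bw t (R.map Function.Embedding.some) = bw (fun i => t (some i)) R := by
  unfold bw
  rw [Finset.prod_map]
  have h2 : (R.map Function.Embedding.some)ᶜ = Finset.insertNone Rᶜ := by
    ext i
    cases i <;> simp
  rw [h2, Finset.prod_insertNone, h0, sub_zero, one_mul]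
  rfl

theorem sum_bw_some (t : Option ι → ℝ) (h0 : t none = 0) (F : Finset (Option ι) → ℝ) :
    ∑ R, bw t R * F R =
      ∑ R : Finset ι, bw (fun i => t (some i)) R * F (R.map Function.Embedding.some) := by
  have h1 : ∑ R : Finset ι, bw (fun i => t (some i)) R * F (R.map Function.Embedding.some) =
      ∑ R ∈ (univ : Finset (Finset ι)).map
        (Finset.mapEmbedding Function.Embedding.some).toEmbedding, bw t R * F R := by
    rw [Finset.sum_map]
    refine Finset.sum_congr rfl fun R _ => ?_
    show _ = bw t (R.map Function.Embedding.some) * F (R.map Function.Embedding.some)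
    rw [bw_map_emb t h0]
  rw [h1]
  symm
  refine Finset.sum_subset (Finset.subset_univ _) fun R _ hR => ?_
  have hn : none ∈ R := by
    by_contra hn
    apply hR
    refine Finset.mem_map.2 ⟨R.eraseNone, Finset.mem_univ _, ?_⟩
    show R.eraseNone.map Function.Embedding.some = R
    rw [Finset.map_some_eraseNone, Finset.erase_eq_of_notMem hn]
  unfold bw
  rw [Finset.prod_eq_zero hn h0, zero_mul, zero_mul]

variable {V : Option ι → Type u2} [∀ i, Fintype (V i)] [∀ i, DecidableEq (V i)]

/-- **the multi-coordinate entropy inequality of the ordinary law** -/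
theorem mei_some {t : Option ι → ℝ} {ε e1 K : ℝ} {mu : (∀ i, V i) → ℝ} (h : MEIK t ε e1 K mu)
    (hmu : IsLaw mu) (h0 : t none = 0) (ht0 : ∀ i, 0 ≤ t i) (ht1 : ∀ i, t i ≤ 1) :
    MEIK (fun i => t (some i)) ε e1 K (push rs mu) := by
  intro nu hnu hle
  have hms : IsLaw (push rs mu) := hmu.push rs
  have hac : AC nu (push rs mu) := H858.AC_of_le hnu.1 hle
  have hK : 0 ≤ K := by
    have h2 : ∑ x, nu x ≤ ∑ x, K * push rs mu x := Finset.sum_le_sum fun x _ => hle x
    rw [← Finset.mul_sum, hnu.2, hms.2, mul_one] at h2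
    linarith
  set nl := H858.lift rs mu nu with hnl
  have hlaw : IsLaw nl := H858.isLaw_lift hmu.1 hnu hac
  have hpush : push rs nl = nu := H858.push_lift hac
  have hKL : KL nl mu = KL nu (push rs mu) := H858.KL_lift hac
  have hle' : ∀ x, nl x ≤ K * mu x := H858.lift_le hmu.1 hK hle
  have hacl : AC nl mu := H858.AC_lift
  have h2 := h nl hlaw hle'
  rw [hKL, sum_bw_some t h0] at h2
  refine le_trans (Finset.sum_le_sum fun R _ => mul_le_mul_of_nonneg_left ?_
    (bw_nonneg (fun i => ht0 (some i)) (fun i => ht1 (some i)) R)) h2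
  have h3 : ∀ la : (∀ i, V i) → ℝ, push (rst R) (push rs la) =
      push (fun (y : ∀ i : {i // i ∈ R.map Function.Embedding.some}, V i) (j : {j // j ∈ R}) =>
        (y ⟨some j.1, Finset.mem_map_of_mem _ j.2⟩ : V (some j.1)))
        (push (rst (R.map Function.Embedding.some)) la) := by
    intro la
    rw [push_push, push_push]
    rfl
  rw [← hpush, h3 nl, h3 mu]
  exact H858.KL_push_le (push_nonneg hlaw.1 _) (push_nonneg hmu.1 _) (hacl.push hmu.1 _) _

theorem sum_pw_rs {u : ∀ i, V i → ℝ} (h1 : ∑ a, u none a = 1)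
    (F : (∀ i : ι, V (some i)) → ℝ) :
    ∑ x, pw u x * F (rs x) = ∑ x, pw (fun i => u (some i)) x * F x := by
  have h2 : ∀ x : ∀ i, V i, pw u x = u none (x none) * pw (fun i => u (some i)) (rs x) := by
    intro x
    unfold pw
    rw [Fintype.prod_option]
    rfl
  have h3 : ∑ x : ∀ i, V i, pw u x * F (rs x) =
      ∑ z : V none × ∀ i : ι, V (some i), u none z.1 * (pw (fun i => u (some i)) z.2 * F z.2) := by
    refine Fintype.sum_equiv (Equiv.piOptionEquivProd) _ _ fun x => ?_
    rw [h2 x, mul_assoc]
    rfl
  rw [h3, Fintype.sum_prod_type]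
  simp only [← Finset.mul_sum]
  rw [← Finset.sum_mul, h1, one_mul]

/-- **low degree moments of the ordinary law** -/
theorem dcl_some {u : ∀ i, V i → ℝ} (h1 : ∑ a, u none a = 1) {mu : (∀ i, V i) → ℝ}
    {ℓ : Option ι → ℝ} {Λ D : ℝ} (a0 : V none)
    (h : DCl ((univ : Finset (Option ι)).erase none) u mu ℓ Λ D) :
    DCl (univ : Finset ι) (fun i => u (some i)) (push rs mu) (fun i => ℓ (some i)) Λ D := by
  classical
  intro A U _ hAU b T hT hdeg e k hk hlen
  have hmaps : ∀ E : Finset (Option ι), E ⊆ U.map Function.Embedding.some →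
      ∃ E' ⊆ U, E'.map Function.Embedding.some = E := by
    intro E hE
    refine ⟨E.eraseNone, fun i hi => ?_, ?_⟩
    · have h2 := hE (Finset.mem_eraseNone.1 hi)
      simpa using h2
    · rw [Finset.map_some_eraseNone, Finset.erase_eq_of_notMem]
      intro hn
      have h2 := hE hn
      simp at h2
  have key := h (A.map Function.Embedding.some) (U.map Function.Embedding.some)
    (by
      intro i hi
      rw [Finset.mem_erase]
      refine ⟨?_, Finset.mem_univ _⟩
      rintro rfl
      simp at hi)
    ((Finset.disjoint_map _).2 hAU) (exo a0 b)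
    (fun E x => if none ∈ E then 0 else T E.eraseNone (rs x))
    (by
      intro E x y hxy
      beta_reduce
      split_ifs with hn
      · rfl
      · refine hT _ fun i hi => ?_
        exact hxy (some i) (Finset.mem_eraseNone.1 hi))
    (by
      intro E j hj x
      by_cases hn : none ∈ E
      · simp [hn]
      · simp only [if_neg hn]
        cases j with
        | none => exact absurd hj hn
        | some j =>
          have h3 := hdeg E.eraseNone j (Finset.mem_eraseNone.2 hj) (rs x)
          refine Eq.trans (Finset.sum_congr rfl fun a _ => ?_) h3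
          congr 2
          funext i
          by_cases hij : i = j
          · subst hij
            simp [rs]
          · have h4 : (some i : Option ι) ≠ some j := fun h => hij (Option.some_injective _ h)
            simp [rs, Function.update_of_ne hij, Function.update_of_ne h4])
    e k hk
    (by
      intro E hE hEc
      obtain ⟨E', hE', rfl⟩ := hmaps E hE
      rw [len_map, len_map]
      exact hlen E' hE' (by rwa [Finset.card_map] at hEc))
  have hsum : ∀ x : ∀ i, V i, ∑ E ∈ (U.map Function.Embedding.some).powersetCard e,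
      (if none ∈ E then 0 else T E.eraseNone (rs x)) =
      ∑ E ∈ U.powersetCard e, T E (rs x) := by
    intro x
    symm
    refine Finset.sum_bij (fun E _ => E.map Function.Embedding.some) ?_ ?_ ?_ ?_
    · intro E hE
      rw [Finset.mem_powersetCard] at hE ⊢
      exact ⟨Finset.map_subset_map.2 hE.1, by rw [Finset.card_map]; exact hE.2⟩
    · intro E _ E' _ hEE
      exact Finset.map_injective _ hEE
    · intro E hE
      rw [Finset.mem_powersetCard] at hE
      obtain ⟨E', hE', h3⟩ := hmaps E hE.1
      refine ⟨E', ?_, h3⟩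
      rw [Finset.mem_powersetCard]
      refine ⟨hE', ?_⟩
      rw [← h3, Finset.card_map] at hE
      exact hE.2
    · intro E _
      rw [if_neg (by simp), Finset.eraseNone_map_some]
  simp only [hsum] at key
  rw [sum_pw_rs h1 fun x => (∑ E ∈ U.powersetCard e, T E x) ^ (2 * k)] at key
  refine le_trans (le_of_eq ?_) key
  have h5 := sum_rs mu A a0 b fun y => (∑ E ∈ U.powersetCard e, T E y) ^ (2 * k) /
    ∏ i ∈ A, u (some i) (b i)
  have h6 : ∀ x : ∀ i : ι, V (some i),
      H956.pin (fun i => u (some i)) (push rs mu) A b x *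
        (∑ E ∈ U.powersetCard e, T E x) ^ (2 * k) =
      if (∀ i ∈ A, x i = b i) then push rs mu x * ((∑ E ∈ U.powersetCard e, T E x) ^ (2 * k) /
        ∏ i ∈ A, u (some i) (b i)) else 0 := by
    intro x
    unfold H956.pin
    split_ifs
    · ring
    · ring
  rw [Finset.sum_congr rfl fun x _ => h6 x, h5]
  refine Finset.sum_congr rfl fun x _ => ?_
  unfold H956.pin
  rw [Finset.prod_map]
  split_ifs
  · rw [mul_div_assoc', div_mul_eq_mul_div]
    rfl
  · rw [zero_mul]

end mei

section main

variable {ι : Type u1} [Fintype ι] [DecidableEq ι] {V : Option ι → Type u2} [∀ i, Fintype (V i)]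
  [∀ i, DecidableEq (V i)] {Q : Prm} {ℓ es : Option ι → ℝ} {lam lam2 u : ∀ i, V i → ℝ}
  {mu mu' : (∀ i, V i) → ℝ}

theorem costP_map (A : Finset ι) :
    costP Q ℓ (A.map Function.Embedding.some) = costP Q (fun i => ℓ (some i)) A := by
  unfold costP
  rw [len_map]

theorem tF_nonneg {κ : Type*} [DecidableEq κ] (Q : Prm) (S : Finset κ) (es : κ → ℝ) (m n : ℕ)
    (i : κ) : 0 ≤ tF Q S es m n i := by
  unfold tF
  split_ifs
  · exact div_nonneg (H365.rate_pos _ _).le (by positivity)
  · exact le_rfl

theorem tF_le_one {κ : Type*} [DecidableEq κ] (Q : Prm) (S : Finset κ) (es : κ → ℝ) {m n : ℕ}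
    (hm : 1 ≤ m) (hn : 1 ≤ n) (i : κ) : tF Q S es m n i ≤ 1 := by
  unfold tF
  split_ifs
  · have hm' : (1 : ℝ) ≤ m := by exact_mod_cast hm
    have hn' : (1 : ℝ) ≤ n := by exact_mod_cast hn
    have h1 : (1 : ℝ) ≤ ((m : ℝ) * n) ^ Q.CK := one_le_pow₀ (by nlinarith)
    exact div_le_one_of_le₀ ((H365.rate_le_one _ _).trans h1) (by linarith)
  · exact zero_le_one

/-- **`PLaw` of the ordinary law.** -/
theorem plaw_some (h : PLaw Q (univ.erase none) ℓ es lam u mu) :
    PLaw Q univ (fun i => ℓ (some i)) (fun i => es (some i)) (fun i => lam (some i))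
      (fun i => u (some i)) (push rs mu) := by
  obtain ⟨a0⟩ : Nonempty (V none) := by
    by_contra hn
    rw [not_nonempty_iff] at hn
    have h1 := h.usum none
    rw [Fintype.sum_empty] at h1
    norm_num at h1
  have hlaw : IsLaw mu := ⟨h.ref.prob.nonneg, h.ref.prob.sum_eq⟩
  have hS : ∀ i : ι, (some i : Option ι) ∈ (univ : Finset (Option ι)).erase none := fun i => by
    simp
  have hn : (none : Option ι) ∉ (univ : Finset (Option ι)).erase none := by simp
  refine ⟨⟨⟨push_nonneg h.ref.prob.nonneg _, ?_⟩, fun i a => h.ref.w_nonneg _ a,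
    fun i => h.ref.w_sum _, fun i a ha => ?_⟩, fun i => h.usum _, fun i a => h.u1 _ a,
    fun i a => h.up _ a, fun i a => h.lo _ a, fun i hi => absurd (Finset.mem_univ i) hi, ?_, ?_,
    ?_, dcl_some (h.usum none) a0 h.dc, ?_⟩
  · rw [sum_push_one]
    exact h.ref.prob.sum_eq
  · rw [m1_rs]
    exact h.ref.ac (some i) a ha
  · intro A hA x
    rw [marg_rs mu A a0 x]
    refine (h.sup (A.map Function.Embedding.some) (by rw [len_map]; exact hA) (exo a0 x)).trans
      (le_of_eq ?_)
    rw [costP_map, lw_map]
    rfl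
  · have h1 := eic_some h.eic (by unfold lamP; rw [if_neg hn]) a0
    have h2 : (fun i : ι => lamP Q ((univ : Finset (Option ι)).erase none) ℓ (some i)) =
        lamP Q univ (fun i => ℓ (some i)) := by
      funext i
      unfold lamP
      rw [if_pos (hS i), if_pos (Finset.mem_univ i)]
    have h3 : (fun A : Finset ι => costP Q ℓ (A.map Function.Embedding.some)) =
        costP Q (fun i => ℓ (some i)) := funext fun A => costP_map A
    have h4 : (fun A : Finset ι => len ℓ (A.map Function.Embedding.some) ≤ Q.Λ) =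
        fun A => len (fun i => ℓ (some i)) A ≤ Q.Λ := funext fun A => by rw [len_map]
    rw [h2, h3, h4] at h1
    exact h1
  · intro m n hm hm' hn' hn''
    have h1 := mei_some (h.mei m n hm hm' hn' hn'') hlaw
      (by unfold tF; rw [if_neg fun hh => hn hh.1]) (tF_nonneg _ _ _ m n)
      (tF_le_one _ _ _ hm hn')
    have h2 : (fun i : ι => tF Q ((univ : Finset (Option ι)).erase none) es m n (some i)) =
        tF Q univ (fun i => es (some i)) m n := by
      funext i
      unfold tF
      by_cases hi : es (some i) ≤ n * Real.log 2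
      · rw [if_pos ⟨hS i, hi⟩, if_pos ⟨Finset.mem_univ i, hi⟩]
      · rw [if_neg fun hh => hi hh.2, if_neg fun hh => hi hh.2]
    rw [h2] at h1
    exact h1
  · intro x hx
    refine le_trans (le_of_eq ?_) (h.lev1 x hx)
    have h1 : ((univ : Finset (Option ι)).erase none).filter
        (fun i => x ≤ es i ∧ es i ≤ x + 1) =
        ((univ : Finset ι).filter fun i => x ≤ es (some i) ∧ es (some i) ≤ x + 1).map
          Function.Embedding.some := by
      ext i
      cases i <;> simp
    rw [h1, Finset.sum_map]
    rfl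

/-- **`PPair` of the ordinary laws.** -/
theorem ppair_some {lo : Option ι → Prop} {K : ∀ i, V i → V i → ℝ} {c : Option ι → ℝ}
    {v v' : ∀ i, V i → ℝ} {s : ∀ i, V i → V i → ℝ} {rho e : Option ι → ℝ}
    (h : PPair Q (univ.erase none) ℓ es lo lam lam2 u K c v v' s rho e mu mu') :
    PPair Q univ (fun i => ℓ (some i)) (fun i => es (some i)) (fun i => lo (some i))
      (fun i => lam (some i)) (fun i => lam2 (some i)) (fun i => u (some i))
      (fun i => K (some i)) (fun i => c (some i)) (fun i => v (some i)) (fun i => v' (some i))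
      (fun i => s (some i)) (fun i => rho (some i)) (fun i => e (some i))
      (push rs mu) (push rs mu') := by
  have hS : ∀ i : ι, (some i : Option ι) ∈ (univ : Finset (Option ι)).erase none := fun i => by
    simp
  exact ⟨plaw_some h.law, plaw_some h.law',
    ⟨fun i => h.ob.rho0 _, fun i => h.ob.e0 _, fun i a b => h.ob.split _ a b,
      fun i b => h.ob.sl _ b, fun i a => h.ob.sr _ a, fun i => h.ob.ul _, fun i => h.ob.ur _,
      fun i => h.ob.cn _, fun i => h.ob.un _, fun i => h.ob.un' _, fun i f => h.ob.sn _ f⟩,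
    fun i a => h.nn _ a, fun i => h.one _, fun i hi => h.low _ hi, fun i hi => h.high _ hi,
    fun i hi => ⟨Finset.mem_univ i, (h.lo1 _ hi).2⟩, fun i _ hi => h.lo2 _ (hS i) hi,
    fun i _ => h.rho1 _ (hS i), fun i _ => h.e1 _ (hS i)⟩

end main

end Vale.Agent.P042.H742
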