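import Mathlib
import Vale.Agent.P042.H416.LevelB
import Vale.Agent.P042.H779.Basic

/-!
# P042, block [B] by rotated replicas (#7400): the common definitions

`lam` is an arbitrary reference (probability weights), `P` a law on `∀ i, V i`; no relation between
`lam` and the one-coordinate marginals of `P` is assumed (only `I1`).
-/

set_option autoImplicit false

namespace Vale.Agent.P042.H742

open Finset Vale.Agent.P042.H461 Vale.Agent.P042.H416
open Vale.Agent.P042.H779 (marg m1)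

variable {ι : Type*} [Fintype ι] [DecidableEq ι] {V : ι → Type*} [∀ i, Fintype (V i)]
  [∀ i, DecidableEq (V i)]

/-- the reference weight of the cylinder `x_W = w_W` -/
def lw (lam : ∀ i, V i → ℝ) (W : Finset ι) (w : ∀ i, V i) : ℝ := ∏ i ∈ W, lam i (w i)

/-- `∑` over the points `y` with `y_W = w_W` of `P y * F y` (no normalisation) -/
noncomputable def pint (P : (∀ i, V i) → ℝ) (W : Finset ι) (w : ∀ i, V i)
    (F : (∀ i, V i) → ℝ) : ℝ :=
  ∑ y, if (∀ i ∈ W, y i = w i) then P y * F y else 0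

/-- (I1) the densities with respect to the reference are at most `M ^ |A|`, `|A| ≤ D0` -/
def I1 (lam : ∀ i, V i → ℝ) (M : ℝ) (D0 : ℕ) (P : (∀ i, V i) → ℝ) : Prop :=
  ∀ A : Finset ι, A.card ≤ D0 → ∀ x, marg P A x ≤ M ^ A.card * lw lam A x

/-- the reference: probability weights with atoms at least `e^(-L)` or zero -/
structure Ref (lam : ∀ i, V i → ℝ) (L : ℝ) : Prop where
  nonneg : ∀ i a, 0 ≤ lam i a
  sum_one : ∀ i, ∑ a, lam i a = 1
  atoms : ∀ i a, lam i a = 0 ∨ Real.exp (-L) ≤ lam i a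

/-- (Z): the means of a family, with the coordinates in `J` replaced by ANY values, vanish for
`|J| < d` (the law is `P`, not pinned) -/
def ZZ (P : (∀ i, V i) → ℝ) (d : ℕ) (T : Finset ι → (∀ i, V i) → ℝ) : Prop :=
  ∀ J : Finset ι, J.card < d → ∀ z : ∀ i, V i,
    ∑ D with J ⊆ D, ∑ x, P x * T D (J.piecewise z x) = 0

/-- the norm `∑_D ‖T_D‖^2 / t_D` -/
noncomputable def nrm (lam : ∀ i, V i → ℝ) (t : ι → ℝ) (T : Finset ι → (∀ i, V i) → ℝ) : ℝ :=
  ∑ D, (∏ i ∈ D, t i)⁻¹ * ∑ x, W lam x * T D x ^ 2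

/-- family of degree `d` off `W` -/
structure IsFam (P : (∀ i, V i) → ℝ) (W : Finset ι) (d : ℕ)
    (T : Finset ι → (∀ i, V i) → ℝ) : Prop where
  deg : ∀ D, D.card ≠ d → T D = 0
  off : ∀ D, ¬ Disjoint D W → T D = 0
  dep : ∀ D, DependsOn (T D) (D : Set ι)
  zz : ZZ P d T

/-- **NEAR-ORTHOGONALITY** (helper678): `G_W(w) E_{P^w} (∑ T)^2 ≤ M^|W| d! M^d ‖T‖_t^2` -/
def NearOrth (lam : ∀ i, V i → ℝ) (t : ι → ℝ) (M : ℝ) (D0 : ℕ) (P : (∀ i, V i) → ℝ) : Prop :=
  ∀ (d : ℕ) (W : Finset ι) (w : ∀ i, V i) (T : Finset ι → (∀ i, V i) → ℝ), W.card + d ≤ D0 →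
    IsFam P W d T →
    pint P W w (fun x => (∑ D, T D x) ^ 2) ≤
      M ^ W.card * lw lam W w * ((d.factorial : ℝ) * M ^ d) * nrm lam t T

/-- the `N`-fold product of `mu` on `ι × Fin N` -/
def rep (mu : (∀ i, V i) → ℝ) (N : ℕ) (y : ∀ p : ι × Fin N, V p.1) : ℝ :=
  ∏ r, mu (fun i => y (i, r))

/-- reference and rates of the replicas -/
def rlam (lam : ∀ i, V i → ℝ) (N : ℕ) (p : ι × Fin N) (a : V p.1) : ℝ := lam p.1 a

def rt (t : ι → ℝ) (N : ℕ) (p : ι × Fin N) : ℝ := t p.1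

/-- the multi-coordinate entropy inequality for the competitors with density at most `K`, with an
additive error `e1` -/
def MEIK (t : ι → ℝ) (ε e1 K : ℝ) (mu : (∀ i, V i) → ℝ) : Prop :=
  ∀ nu : (∀ i, V i) → ℝ, IsLaw nu → (∀ x, nu x ≤ K * mu x) →
    ∑ R : Finset ι, bw t R * KL (push (rst R) nu) (push (rst R) mu) ≤ ε * KL nu mu + e1

/-- density with respect to the reference -/
noncomputable def gr (lam : ∀ i, V i → ℝ) (mu : (∀ i, V i) → ℝ) (A : Finset ι)
    (x : ∀ i, V i) : ℝ := marg mu A x / lw lam A x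

/-- the connected densities through `i`: `g_{i+D} = ∑_{C ⊆ D} k_C g_{D∖C}` (`k_∅ = g_i`;
`k_C = kappa_{i+C}` for `C ≠ ∅`) -/
def IsCumI (lam : ∀ i, V i → ℝ) (mu : (∀ i, V i) → ℝ) (i : ι)
    (k : Finset ι → (∀ i, V i) → ℝ) : Prop :=
  ∀ D : Finset ι, i ∉ D → ∀ x, W lam x ≠ 0 →
    gr lam mu (insert i D) x = ∑ C ∈ D.powerset, k C x * gr lam mu (D \ C) x

end Vale.Agent.P042.H742
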