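import Vale.Agent.P042.H742.BState

/-!
# P042, block [B] with one extra coordinate `o` (not in any family of the functional)

`MEIK.upd`: the entropy inequality at rates with `t o = 0` gives the one at any small rate `t o`.
`bhyp_state_o`: `BHyp` for the law of a cell of the maximiser on `∀ i, V i`, where the coordinate
`o` (any modulus coprime to the others) is not used by the family.
-/

set_option autoImplicit false
set_option linter.unusedSectionVars false

namespace Vale.Agent.P042.H742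

open Finset Vale.Agent.P042.H945 Vale.Agent.P042.H858 Vale.Agent.P042.H461 Vale.Agent.P042.H416
  Vale.Agent.P042.H365 Vale.Agent.P042.H678
open Vale.Agent.P042.H599 (cm Law)

section upd

variable {ι : Type*} [Fintype ι] [DecidableEq ι] {V : ι → Type*} [∀ i, Fintype (V i)]
  [∀ i, DecidableEq (V i)] {mu : (∀ i, V i) → ℝ} {t : ι → ℝ}

theorem bw_upd_zero {o : ι} {R : Finset ι} (ho : o ∈ R) : bw (Function.update t o 0) R = 0 := by
  unfold bw
  rw [Finset.prod_eq_zero ho (Function.update_self o 0 t), zero_mul]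

theorem bw_le_upd (ht0 : ∀ i, 0 ≤ t i) (ht1 : ∀ i, t i ≤ 1) {o : ι} {R : Finset ι} (ho : o ∉ R) :
    bw t R ≤ bw (Function.update t o 0) R := by
  unfold bw
  have h1 : ∏ i ∈ R, Function.update t o 0 i = ∏ i ∈ R, t i :=
    Finset.prod_congr rfl fun i hi => by
      have hio : i ≠ o := by
        rintro rfl
        exact ho hi
      exact Function.update_of_ne hio 0 t
  rw [h1]
  refine mul_le_mul_of_nonneg_left ?_ (Finset.prod_nonneg fun i _ => ht0 i)
  refine Finset.prod_le_prod (fun i _ => by linarith [ht1 i]) fun i _ => ?_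
  by_cases h : i = o
  · subst h
    rw [Function.update_self]
    linarith [ht0 i]
  · rw [Function.update_of_ne h]

/-- **one more coordinate at a small rate** -/
theorem MEIK.upd {ε e1 K : ℝ} {o : ι} (hmu : IsLaw mu) (ht0 : ∀ i, 0 ≤ t i) (ht1 : ∀ i, t i ≤ 1)
    (h : MEIK (Function.update t o 0) ε e1 K mu) : MEIK t (ε + t o) e1 K mu := by
  intro nu hnu hle
  have hac := AC_of_le hnu.1 hle
  have h1 := h nu hnu hle
  have hC : ∀ R : Finset ι, KL (push (rst R) nu) (push (rst R) mu) ≤ KL nu mu := fun R =>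
    Vale.Agent.P042.H858.KL_push_le hnu.1 hmu.1 hac (rst R)
  have hC0 : ∀ R : Finset ι, 0 ≤ KL (push (rst R) nu) (push (rst R) mu) := fun R =>
    KL_nonneg (hnu.push (rst R)).1 (hmu.push (rst R)).1
      (by rw [(hnu.push (rst R)).2, (hmu.push (rst R)).2])
      (AC.push hac hmu.1 _)
  have hpt : ∀ R : Finset ι, bw t R * KL (push (rst R) nu) (push (rst R) mu) ≤
      bw (Function.update t o 0) R * KL (push (rst R) nu) (push (rst R) mu) +
        (if {o} ⊆ R then bw t R else 0) * KL nu mu := by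
    intro R
    have hb := bw_nonneg ht0 ht1 R
    by_cases ho : o ∈ R
    · rw [if_pos (Finset.singleton_subset_iff.2 ho), bw_upd_zero ho, zero_mul, zero_add]
      exact mul_le_mul_of_nonneg_left (hC R) hb
    · rw [if_neg (fun h => ho (Finset.singleton_subset_iff.1 h)), zero_mul, add_zero]
      exact mul_le_mul_of_nonneg_right (bw_le_upd ht0 ht1 ho) (hC0 R)
  refine (Finset.sum_le_sum fun R _ => hpt R).trans ?_
  rw [Finset.sum_add_distrib, ← Finset.sum_mul]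
  have h2 : ∑ R : Finset ι, (if {o} ⊆ R then bw t R else 0) = t o := by
    rw [← Finset.sum_filter, sum_bw_superset, Finset.prod_singleton]
  rw [h2]
  have h3 : (ε + t o) * KL nu mu = ε * KL nu mu + t o * KL nu mu := by ring
  linarith

end upd

section state

variable {κ : Type} {Q : Par κ} {N d M : ℕ} {A0 : Finset ℤ} {a : ℤ} {x y : ℕ → ℝ}

/-- one family of moduli, indexed by any finite set of sets -/
theorem mei_family_on {ι : Type*} [Fintype ι] [DecidableEq ι] {L : ℝ}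
    (hm : Mx Q N A0 d a M x L) {OB : ℝ} (hOB : ∀ S, Om Q d S ≤ OB)
    {D w u v : ℕ} (hD : 1 ≤ D) (hu : 1 ≤ u) (hv : v ≤ M)
    (huv : 2 * Q.Mm * Q.lam D ≤ v + 1 - u) (hcop : ∀ i ∈ Q.I, Nat.Coprime (Q.m i) D)
    (hcW : ∀ p ∈ Q.W, Nat.Coprime p D) (hms : ms x M (cellP Q M x D w u v) ≠ 0)
    {K : ℝ} (hK1 : 1 ≤ K)
    (hK : K * ((v + 1 - u : ℕ) : ℝ) ≤
      Real.exp (Q.D0 / 4) * (D * M * ms x M (cellP Q M x D w u v)))
    {q : ι → ℕ} {𝓡 : Finset (Finset ι)} {e : Finset ι → κ} {b : Finset ι → ℝ} {C0 ac : ℝ}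
    (hC0 : 0 < C0) (he : Set.InjOn e (𝓡 : Set (Finset ι)))
    (hfam : ∀ R ∈ 𝓡, e R ∈ Q.I ∧ Q.m (e R) = ∏ i ∈ R, q i ∧ C0 * b R ≤ Q.c (e R))
    (hac : cellCost Q M x L OB (K / ms x M (cellP Q M x D w u v)) D w u v ≤ ac)
    (hy : Law y 1 M)
    (hle : ∀ i < M, y (1 + i) ≤
      K * Vale.Agent.P042.H945.rst x M (cellP Q M x D w u v) (1 + i)) :
    ∑ R ∈ 𝓡, b R * klr y x 1 M (∏ i ∈ R, q i) ≤
      C0⁻¹ * (kli y (Vale.Agent.P042.H945.rst x M (cellP Q M x D w u v)) 1 M + ac) := by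
  classical
  have h1 := mei_cell hm hOB hD hu hv huv hcop hcW hms hK1 hK hy hle
  have hQ := hm.ok
  have hx := hm.mx.1.law
  have hac' : Vale.Agent.P042.H945.AC y x M := fun i hi h0 => by
    by_contra hc
    have h2 := hle i hi
    have h3 : 0 < y (1 + i) := lt_of_le_of_ne (hy.nonneg i hi) (Ne.symm hc)
    unfold Vale.Agent.P042.H945.rst at h2
    split_ifs at h2 with h4
    · rw [h0, zero_div, mul_zero] at h2
      linarith
    · rw [mul_zero] at h2
      linarith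
  have hnn : ∀ i ∈ Q.I, 0 ≤ klr y x 1 M (Q.m i) := fun i hi => by
    rw [klr_eq_klc hx hac']
    exact klc_nonneg hy hx hac' (hQ.hm i hi)
  have h2 : C0 * ∑ R ∈ 𝓡, b R * klr y x 1 M (∏ i ∈ R, q i) ≤
      ∑ i ∈ Q.I, Q.c i * klr y x 1 M (Q.m i) := by
    rw [Finset.mul_sum]
    have h3 : ∀ R ∈ 𝓡, C0 * (b R * klr y x 1 M (∏ i ∈ R, q i)) ≤
        Q.c (e R) * klr y x 1 M (Q.m (e R)) := by
      intro R hR
      obtain ⟨h4, h5, h6⟩ := hfam R hR
      rw [← mul_assoc, h5]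
      refine mul_le_mul_of_nonneg_right h6 ?_
      rw [← h5]
      exact hnn _ h4
    refine (Finset.sum_le_sum h3).trans ?_
    rw [← Finset.sum_image (f := fun j => Q.c j * klr y x 1 M (Q.m j)) he]
    refine Finset.sum_le_sum_of_subset_of_nonneg ?_ fun i hi _ =>
      mul_nonneg (hQ.hc i hi) (hnn i hi)
    intro j hj
    obtain ⟨R, hR, rfl⟩ := Finset.mem_image.1 hj
    exact (hfam R hR).1
  have h3 : C0 * ∑ R ∈ 𝓡, b R * klr y x 1 M (∏ i ∈ R, q i) ≤
      kli y (Vale.Agent.P042.H945.rst x M (cellP Q M x D w u v)) 1 M + ac := by linarith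
  rw [inv_mul_eq_div, le_div_iff₀ hC0, mul_comm]
  exact h3

variable {ι : Type*} [Fintype ι] [DecidableEq ι] {V : ι → Type*} [∀ i, Fintype (V i)]
  [∀ i, DecidableEq (V i)] {lam : ∀ i, V i → ℝ} {t Mi : ι → ℝ}

/-- **block [B] at the extremal state, one family and one extra coordinate `o`** -/
theorem bhyp_state_o {L : ℝ} (hm : Mx Q N A0 d a M x L) {OB : ℝ} (hOB : ∀ S, Om Q d S ≤ OB)
    {D w u v : ℕ} (hD : 1 ≤ D) (hu : 1 ≤ u) (hv : v ≤ M)
    (huv : 2 * Q.Mm * Q.lam D ≤ v + 1 - u) (hcop : ∀ i ∈ Q.I, Nat.Coprime (Q.m i) D)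
    (hcW : ∀ p ∈ Q.W, Nat.Coprime p D) (hms : ms x M (cellP Q M x D w u v) ≠ 0)
    -- the residue maps and the family; the coordinate `o` is not in the family
    (o : ι) {q : ι → ℕ} (hq : ∀ i, 0 < q i) (hc : Pairwise fun i j => (q i).Coprime (q j))
    {r : ∀ i, ℕ → V i} (hr : ∀ i n m, r i n = r i m ↔ n ≡ m [MOD q i])
    (ht0 : ∀ i, 0 < t i) (ht1 : ∀ i, t i ≤ 1) {B : ℕ} {e : Finset ι → κ}
    {C0 ac Λ q0 Lr : ℝ} {Dd : ℕ} (hC0 : 0 < C0)
    (he : ∀ R R' : Finset ι, o ∉ R → o ∉ R' → ∏ i ∈ R, q i ≤ B → ∏ i ∈ R', q i ≤ B →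
      e R = e R' → R = R')
    (hfam : ∀ R : Finset ι, o ∉ R → ∏ i ∈ R, q i ≤ B →
      e R ∈ Q.I ∧ Q.m (e R) = ∏ i ∈ R, q i ∧ C0 * bw (Function.update t o 0) R ≤ Q.c (e R))
    (hq0 : ∑ R with ¬ ∏ i ∈ R, q i ≤ B, bw (Function.update t o 0) R ≤ q0)
    -- the size of the cell
    (hK : Real.exp (6 * Λ) * ((v + 1 - u : ℕ) : ℝ) ≤
      Real.exp (Q.D0 / 4) * (D * M * ms x M (cellP Q M x D w u v)))
    (hac0 : 0 ≤ ac)
    (hac : cellCost Q M x L OB (Real.exp (6 * Λ) / ms x M (cellP Q M x D w u v)) D w u v ≤ ac)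
    -- the reference law
    (hR : Ref lam Lr)
    (hI : I1M lam Mi Dd (pf r (Vale.Agent.P042.H945.rst x M (cellP Q M x D w u v)) 1 M))
    (hMi : ∀ i, 1 ≤ Mi i)
    -- numbers
    (hLr : 1 ≤ Lr) (hDd : 1 ≤ Dd) (hΛ10 : 10 ≤ Λ)
    (hΛ : Dd * (Lr + Real.log (Fintype.card ι * Dd)) + 3 ≤ Λ) (haL : ac ≤ Lr)
    (hn : 20000 * Λ ^ 2 ≤ C0) (hq' : 1408 * (q0 + t o) * Λ ≤ 1) :
    BHyp lam (pf r (Vale.Agent.P042.H945.rst x M (cellP Q M x D w u v)) 1 M) t Mi Lr Λ
      (1 / (704 * Λ)) Λ (Real.exp (-(3 * Λ))) Dd := by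
  classical
  have hx := hm.mx.1.law
  have hmu : Law (Vale.Agent.P042.H945.rst x M (cellP Q M x D w u v)) 1 M :=
    rst_law hx (ms_pos_of hx hms)
  have hΛ0 : 0 < Λ := by linarith
  have htu0 : ∀ i, 0 ≤ Function.update t o 0 i := fun i => by
    by_cases h : i = o
    · subst h; rw [Function.update_self]
    · rw [Function.update_of_ne h]; exact (ht0 i).le
  have htu1 : ∀ i, Function.update t o 0 i ≤ 1 := fun i => by
    by_cases h : i = o
    · subst h; rw [Function.update_self]; norm_num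
    · rw [Function.update_of_ne h]; exact ht1 i
  have hacx : ∀ i < M, x (1 + i) = 0 →
      Vale.Agent.P042.H945.rst x M (cellP Q M x D w u v) (1 + i) = 0 := fun i _ h0 => by
    unfold Vale.Agent.P042.H945.rst
    split_ifs
    · rw [h0, zero_div]
    · rfl
  have hH : ∀ nu : ℕ → ℝ, Law nu 1 M → (∀ i < M, nu (1 + i) ≤ Real.exp (6 * Λ) *
        Vale.Agent.P042.H945.rst x M (cellP Q M x D w u v) (1 + i)) →
      ∑ R : Finset ι with ∏ i ∈ R, q i ≤ B, bw (Function.update t o 0) R *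
        klr nu x 1 M (∏ i ∈ R, q i) ≤
        C0⁻¹ * (kli nu (Vale.Agent.P042.H945.rst x M (cellP Q M x D w u v)) 1 M + ac) := by
    intro nu hnu hle
    have h1 : ∑ R : Finset ι with ∏ i ∈ R, q i ≤ B, bw (Function.update t o 0) R *
        klr nu x 1 M (∏ i ∈ R, q i) =
        ∑ R : Finset ι with (∏ i ∈ R, q i ≤ B ∧ o ∉ R), bw (Function.update t o 0) R *
          klr nu x 1 M (∏ i ∈ R, q i) := by
      rw [← Finset.filter_filter]
      symm
      refine Finset.sum_filter_of_ne fun R _ h => ?_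
      intro ho
      exact h (by rw [bw_upd_zero ho, zero_mul])
    rw [h1]
    refine mei_family_on hm hOB hD hu hv huv hcop hcW hms (Real.one_le_exp (by positivity)) hK hC0
      (e := e) ?_ ?_ hac hnu hle
    · intro R hR R' hR' h
      have h2 := (Finset.mem_filter.1 (Finset.mem_coe.1 hR)).2
      have h3 := (Finset.mem_filter.1 (Finset.mem_coe.1 hR')).2
      exact he R R' h2.2 h3.2 h2.1 h3.1 h
    · intro R hR
      have h2 := (Finset.mem_filter.1 hR).2
      exact hfam R h2.2 h2.1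
  have h1 := MEIK_int hq hc hr hmu hx hacx htu0 htu1 (K := Real.exp (6 * Λ))
    (Real.one_le_exp (by positivity)) hq0 hH
  rw [Real.log_exp] at h1
  have hlaw : IsLaw (pf r (Vale.Agent.P042.H945.rst x M (cellP Q M x D w u v)) 1 M) :=
    isLaw_pf r hmu
  have h2 := MEIK.upd hlaw (fun i => (ht0 i).le) ht1 h1
  have hεs : 0 ≤ C0⁻¹ := inv_nonneg.2 hC0.le
  have hn' : 20000 * C0⁻¹ * Λ ^ 2 ≤ 1 := by
    rw [mul_comm, ← mul_assoc, mul_inv_le_iff₀ hC0]
    linarith
  obtain ⟨h3, h4⟩ := num_ok (n := Fintype.card ι) (q0 := q0 + t o) hLr hΛ10 hΛ haL hεs hn' hq'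
  have h5 : 0 ≤ 4 * (3 + 6 * Λ) * C0⁻¹ * ac := by positivity
  have h6 := h2.mono hlaw (Real.exp_pos _).le (e1' := 4 * (3 + 6 * Λ) * C0⁻¹ * ac)
    (ε' := 1 / (704 * Λ)) (by linarith) le_rfl
  refine bhyp_of_meik hlaw hR hI hMi ht0 ht1 (by linarith) hDd hΛ h6 (by positivity) h5 ?_ h4
  have : 704 * (1 / (704 * Λ)) * Λ = 1 := by field_simp
  exact this.le

end state

end Vale.Agent.P042.H742
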