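import Vale.Agent.P042.H945.State6
import Vale.Agent.P042.H858.PushZ

/-!
# P042, seam [D] → [B]: the multi-coordinate entropy inequality of a cell, from `master`

`x` is the maximiser on `{1, ..., M}`, `cellP` = the points of `[u, v]`, in the class `w` modulo `D`,
with `M x n ≤ exp (D0 / 2)`; `rst x M cellP` is the law of the cell.
-/

set_option autoImplicit false
set_option linter.unusedSectionVars false

namespace Vale.Agent.P042.H742

open Finset Vale.Agent.P042.H945 Vale.Agent.P042.H858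
open Vale.Agent.P042.H599 (cm Law cm_nonneg)

variable {κ : Type} {Q : Par κ} {N d M : ℕ} {A0 : Finset ℤ} {a : ℤ} {x y : ℕ → ℝ}

/-- the points of a cell -/
def cellP (Q : Par κ) (M : ℕ) (x : ℕ → ℝ) (D w u v : ℕ) (n : ℕ) : Prop :=
  (M : ℝ) * x n ≤ Real.exp (Q.D0 / 2) ∧ u ≤ n ∧ n ≤ v ∧ n % D = w

/-- the cost of a cell -/
noncomputable def cellCost (Q : Par κ) (M : ℕ) (x : ℕ → ℝ) (L OB K : ℝ) (D w u v : ℕ) : ℝ :=
  Real.log ((v + 1 - u : ℕ) : ℝ) - Real.log M - Real.log D -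
    Real.log (ms x M (cellP Q M x D w u v)) +
    Q.eta * (Real.log M - Real.log ((v + 1 - u : ℕ) : ℝ) + Real.log (Q.lam D)) +
    Err Q M L OB K (Q.lam D / ((v + 1 - u : ℕ) : ℝ))

/-- restriction of a function to `{1, ..., M}` -/
def cut (M : ℕ) (y : ℕ → ℝ) (n : ℕ) : ℝ := if 1 ≤ n ∧ n ≤ M then y n else 0

theorem cut_add {i : ℕ} (hi : i < M) : cut M y (1 + i) = y (1 + i) := by
  unfold cut
  rw [if_pos ⟨by omega, by omega⟩]

theorem law_cut (hy : Law y 1 M) : Law (cut M y) 1 M := by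
  refine ⟨hy.pos, fun i hi => ?_, ?_⟩
  · rw [cut_add hi]; exact hy.nonneg i hi
  · rw [← hy.sum]
    exact Finset.sum_congr rfl fun i hi => cut_add (mem_range.1 hi)

theorem cm_cut (m r : ℕ) : cm (cut M y) 1 M m r = cm y 1 M m r := by
  unfold Vale.Agent.P042.H599.cm
  refine Finset.sum_congr rfl fun i hi => ?_
  rw [cut_add (mem_range.1 hi)]

theorem klr_cut (z : ℕ → ℝ) (m : ℕ) : klr (cut M y) z 1 M m = klr y z 1 M m := by
  unfold klr
  exact Finset.sum_congr rfl fun r _ => by rw [cm_cut]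

theorem kli_cut (z : ℕ → ℝ) : kli (cut M y) z 1 M = kli y z 1 M := by
  unfold kli
  exact Finset.sum_congr rfl fun i hi => by rw [cut_add (mem_range.1 hi)]

theorem klr_eq_klc (hx : Law x 1 M) (hac : Vale.Agent.P042.H945.AC y x M) (m : ℕ) :
    klr y x 1 M m = klc y x M m := by
  unfold klr klc
  refine Finset.sum_congr rfl fun r _ => ?_
  by_cases h0 : cm y 1 M m r = 0
  · rw [h0, zero_mul, zero_mul]
  · have h1 : cm x 1 M m r ≠ 0 := fun h => h0 (cm_AC hx hac h)
    rw [Real.log_div h0 h1]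

/-- the relative entropy to the law of a cell -/
theorem kl2_cell {S : ℕ → Prop} (hy : Law y 1 M) (hm : ms x M S ≠ 0)
    (hS : ∀ i < M, y (1 + i) ≠ 0 → S (1 + i) ∧ x (1 + i) ≠ 0) :
    kl2 y x M = kli y (Vale.Agent.P042.H945.rst x M S) 1 M - Real.log (ms x M S) := by
  have h1 : kli y (Vale.Agent.P042.H945.rst x M S) 1 M = kl2 y x M + Real.log (ms x M S) := by
    have h2 : Real.log (ms x M S) = ∑ i ∈ range M, y (1 + i) * Real.log (ms x M S) := by
      rw [← Finset.sum_mul, hy.sum, one_mul]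
    rw [h2]
    unfold kli kl2 SM
    rw [← Finset.sum_add_distrib]
    refine Finset.sum_congr rfl fun i hi => ?_
    by_cases h0 : y (1 + i) = 0
    · simp [h0]
    · obtain ⟨h3, h4⟩ := hS i (mem_range.1 hi) h0
      have h5 : Vale.Agent.P042.H945.rst x M S (1 + i) = x (1 + i) / ms x M S := by
        unfold Vale.Agent.P042.H945.rst
        rw [if_pos h3]
        rfl
      rw [h5, Real.log_div h0 (div_ne_zero h4 hm), Real.log_div h4 hm]
      ring
  linarith

theorem ms_pos_of {S : ℕ → Prop} (hx : Law x 1 M) (h : ms x M S ≠ 0) : 0 < ms x M S :=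
  lt_of_le_of_ne (ms_nonneg hx S) (Ne.symm h)

/-- **the multi-coordinate entropy inequality for competitors in a cell** -/
theorem mei_cell {L : ℝ} (hm : Mx Q N A0 d a M x L) {OB : ℝ} (hOB : ∀ S, Om Q d S ≤ OB)
    {D w u v : ℕ} (hD : 1 ≤ D) (hu : 1 ≤ u) (hv : v ≤ M)
    (huv : 2 * Q.Mm * Q.lam D ≤ v + 1 - u) (hcop : ∀ i ∈ Q.I, Nat.Coprime (Q.m i) D)
    (hcW : ∀ p ∈ Q.W, Nat.Coprime p D) (hms : ms x M (cellP Q M x D w u v) ≠ 0)
    {K : ℝ} (hK1 : 1 ≤ K)
    (hK : K * ((v + 1 - u : ℕ) : ℝ) ≤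
      Real.exp (Q.D0 / 4) * (D * M * ms x M (cellP Q M x D w u v)))
    (hy : Law y 1 M)
    (hle : ∀ i < M, y (1 + i) ≤
      K * Vale.Agent.P042.H945.rst x M (cellP Q M x D w u v) (1 + i)) :
    ∑ i ∈ Q.I, Q.c i * klr y x 1 M (Q.m i) ≤
      kli y (Vale.Agent.P042.H945.rst x M (cellP Q M x D w u v)) 1 M +
        cellCost Q M x L OB (K / ms x M (cellP Q M x D w u v)) D w u v := by
  classical
  set S := cellP Q M x D w u v with hS
  set m := ms x M S with hmdef
  have hQ := hm.ok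
  have hA := hm.mx.1
  have hx := hA.law
  have hm0 : 0 < m := ms_pos_of hx hms
  have hm1 : m ≤ 1 := ms_le_one hx S
  have hM0 : (0 : ℝ) < M := by exact_mod_cast hx.pos
  have hV0 : 0 < v + 1 - u := by
    have h1 := hQ.Mm1
    have h2 := hQ.lam0 D hD
    have h3 : 0 < 2 * Q.Mm * Q.lam D := by positivity
    omega
  have hV : (0 : ℝ) < ((v + 1 - u : ℕ) : ℝ) := by exact_mod_cast hV0
  -- values of the law of the cell
  have hr : ∀ n, S n → Vale.Agent.P042.H945.rst x M S n = x n / m := fun n h => by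
    unfold Vale.Agent.P042.H945.rst
    rw [if_pos h]
    rfl
  have hr0 : ∀ n, ¬ S n → Vale.Agent.P042.H945.rst x M S n = 0 := fun n h => by
    unfold Vale.Agent.P042.H945.rst
    rw [if_neg h]
  -- the support of the competitor
  have hsup : ∀ i < M, y (1 + i) ≠ 0 → S (1 + i) ∧ x (1 + i) ≠ 0 := fun i hi h0 => by
    have h1 : 0 < y (1 + i) := lt_of_le_of_ne (hy.nonneg i hi) (Ne.symm h0)
    have h2 := hle i hi
    have h3 : S (1 + i) := by
      by_contra hc
      rw [hr0 _ hc, mul_zero] at h2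
      linarith
    refine ⟨h3, fun h4 => ?_⟩
    rw [hr _ h3, h4, zero_div, mul_zero] at h2
    linarith
  have hbound : ∀ n, cut M y n ≤ K / m * x n ∧ (cut M y n ≠ 0 → S n ∧ x n ≠ 0) := fun n => by
    by_cases hn : 1 ≤ n ∧ n ≤ M
    · obtain ⟨i, rfl⟩ : ∃ i, n = 1 + i := ⟨n - 1, by omega⟩
      have hi : i < M := by omega
      rw [cut_add hi]
      refine ⟨?_, hsup i hi⟩
      by_cases h0 : y (1 + i) = 0
      · rw [h0]
        have := law_nonneg hA (1 + i)
        positivity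
      · have h1 := hle i hi
        rw [hr _ (hsup i hi h0).1] at h1
        calc y (1 + i) ≤ K * (x (1 + i) / m) := h1
          _ = K / m * x (1 + i) := by ring
    · unfold cut
      rw [if_neg hn]
      have := law_nonneg hA n
      exact ⟨by positivity, fun h => absurd rfl h⟩
  have hcomp : Comp Q M x D w u v (cut M y) := by
    refine ⟨hD, hu, hv, huv, law_cut hy, fun n hn => ?_, fun n => ?_⟩
    · obtain ⟨h1, h2⟩ := (hbound n).2 hn
      exact ⟨h2, h1.2.1, h1.2.2.1, h1.2.2.2⟩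
    · by_cases h0 : cut M y n = 0
      · rw [h0]; positivity
      · obtain ⟨h1, h2⟩ := (hbound n).2 h0
        have h3 := (hbound n).1
        have h4 : x n ≤ Real.exp (Q.D0 / 2) / M := by
          rw [le_div_iff₀ hM0, mul_comm]
          exact h1.1
        have h5 : K / m * x n ≤ K / m * (Real.exp (Q.D0 / 2) / M) :=
          mul_le_mul_of_nonneg_left h4 (by positivity)
        refine h3.trans (h5.trans ?_)
        rw [le_div_iff₀ hV]
        have h6 : K / m * (Real.exp (Q.D0 / 2) / M) * ((v + 1 - u : ℕ) : ℝ) =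
            (K * ((v + 1 - u : ℕ) : ℝ)) * (Real.exp (Q.D0 / 2) / (m * M)) := by
          field_simp
        rw [h6]
        have h7 : Real.exp (3 / 4 * Q.D0) * D =
            (Real.exp (Q.D0 / 4) * (D * M * m)) * (Real.exp (Q.D0 / 2) / (m * M)) := by
          have h8 : Real.exp (3 / 4 * Q.D0) = Real.exp (Q.D0 / 4) * Real.exp (Q.D0 / 2) := by
            rw [← Real.exp_add]
            congr 1
            ring
          rw [h8]
          field_simp
        rw [h7]
        exact mul_le_mul_of_nonneg_right hK (by positivity)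
  have hK' : 1 ≤ K / m := by
    rw [le_div_iff₀ hm0]
    linarith
  have hmas := master hm hcomp hK' (fun n => (hbound n).1) hOB Q.m
    (fun i hi => ⟨hQ.hm i hi, dvd_rfl, hcop i hi⟩)
  -- the correction term vanishes
  have hSC : SC Q M x Q.m (cut M y) = 0 := by
    unfold SC
    refine Finset.sum_eq_zero fun i _ => ?_
    have : SM M (fun n => cut M y n * (lc x M (Q.m i) n - lc x M (Q.m i) n)) = 0 := by
      unfold SM
      refine Finset.sum_eq_zero fun j _ => ?_
      ring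
    rw [this, mul_zero]
  have hOm : Om Q d (sp x M) ≤ Omc Q d D M (cut M y) := by
    unfold Om Omc
    rw [Finset.filter_true_of_mem hcW]
    refine Finset.sum_le_sum fun p hp => om_anti hQ hA.hd hp ?_
    intro n hn
    unfold sp at hn ⊢
    rw [Finset.mem_filter] at hn ⊢
    exact ⟨hn.1, ((hbound n).2 hn.2).2⟩
  have hkl := kl2_cell (x := x) (S := S) (law_cut hy) hms
    (fun i hi h => (hbound (1 + i)).2 h)
  rw [kli_cut] at hkl
  have hKC : KC Q M x Q.m (cut M y) = ∑ i ∈ Q.I, Q.c i * klr y x 1 M (Q.m i) := by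
    unfold KC
    refine Finset.sum_congr rfl fun i _ => ?_
    rw [← klr_eq_klc hx hcomp.ac, klr_cut]
  rw [hSC, hKC, hkl] at hmas
  unfold cellCost
  rw [← hS, ← hmdef]
  rw [← hmdef] at hmas
  have e1 : (1 - Q.eta) * (Real.log M - Real.log ((v + 1 - u : ℕ) : ℝ)) =
      Real.log M - Real.log ((v + 1 - u : ℕ) : ℝ) -
      Q.eta * (Real.log M - Real.log ((v + 1 - u : ℕ) : ℝ)) := by ring
  rw [e1] at hmas
  have e2 : Q.eta * (Real.log M - Real.log ((v + 1 - u : ℕ) : ℝ) + Real.log (Q.lam D)) =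
      Q.eta * (Real.log M - Real.log ((v + 1 - u : ℕ) : ℝ)) + Q.eta * Real.log (Q.lam D) := by ring
  rw [e2]
  linarith

/-- one family of moduli -/
theorem mei_family {ι : Type*} [Fintype ι] [DecidableEq ι] {L : ℝ}
    (hm : Mx Q N A0 d a M x L) {OB : ℝ} (hOB : ∀ S, Om Q d S ≤ OB)
    {D w u v : ℕ} (hD : 1 ≤ D) (hu : 1 ≤ u) (hv : v ≤ M)
    (huv : 2 * Q.Mm * Q.lam D ≤ v + 1 - u) (hcop : ∀ i ∈ Q.I, Nat.Coprime (Q.m i) D)
    (hcW : ∀ p ∈ Q.W, Nat.Coprime p D) (hms : ms x M (cellP Q M x D w u v) ≠ 0)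
    {K : ℝ} (hK1 : 1 ≤ K)
    (hK : K * ((v + 1 - u : ℕ) : ℝ) ≤
      Real.exp (Q.D0 / 4) * (D * M * ms x M (cellP Q M x D w u v)))
    {q : ι → ℕ} {B : ℕ} {e : Finset ι → κ} {b : Finset ι → ℝ} {C0 ac : ℝ} (hC0 : 0 < C0)
    (he : ∀ R R' : Finset ι, ∏ i ∈ R, q i ≤ B → ∏ i ∈ R', q i ≤ B → e R = e R' → R = R')
    (hfam : ∀ R : Finset ι, ∏ i ∈ R, q i ≤ B →
      e R ∈ Q.I ∧ Q.m (e R) = ∏ i ∈ R, q i ∧ C0 * b R ≤ Q.c (e R))
    (hac : cellCost Q M x L OB (K / ms x M (cellP Q M x D w u v)) D w u v ≤ ac)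
    (hy : Law y 1 M)
    (hle : ∀ i < M, y (1 + i) ≤
      K * Vale.Agent.P042.H945.rst x M (cellP Q M x D w u v) (1 + i)) :
    ∑ R : Finset ι with ∏ i ∈ R, q i ≤ B, b R * klr y x 1 M (∏ i ∈ R, q i) ≤
      C0⁻¹ * (kli y (Vale.Agent.P042.H945.rst x M (cellP Q M x D w u v)) 1 M + ac) := by
  classical
  have h1 := mei_cell hm hOB hD hu hv huv hcop hcW hms hK1 hK hy hle
  have hQ := hm.ok
  have hx := hm.mx.1.law
  have hac' : Vale.Agent.P042.H945.AC y x M := fun i hi h0 => by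
    by_contra hc
    have h2 := hle i hi
    have h3 : 0 < y (1 + i) := lt_of_le_of_ne (hy.nonneg i hi) (Ne.symm hc)
    unfold Vale.Agent.P042.H945.rst at h2
    split_ifs at h2 with h4
    · rw [h0, zero_div, mul_zero] at h2
      linarith
    · rw [mul_zero] at h2
      linarith
  have hnn : ∀ i ∈ Q.I, 0 ≤ klr y x 1 M (Q.m i) := fun i hi => by
    rw [klr_eq_klc hx hac']
    exact klc_nonneg hy hx hac' (hQ.hm i hi)
  have h2 : C0 * ∑ R : Finset ι with ∏ i ∈ R, q i ≤ B, b R * klr y x 1 M (∏ i ∈ R, q i) ≤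
      ∑ i ∈ Q.I, Q.c i * klr y x 1 M (Q.m i) := by
    rw [Finset.mul_sum]
    have h3 : ∀ R ∈ (univ : Finset (Finset ι)).filter (fun R => ∏ i ∈ R, q i ≤ B),
        C0 * (b R * klr y x 1 M (∏ i ∈ R, q i)) ≤
          Q.c (e R) * klr y x 1 M (Q.m (e R)) := by
      intro R hR
      obtain ⟨h4, h5, h6⟩ := hfam R (Finset.mem_filter.1 hR).2
      rw [← mul_assoc, h5]
      refine mul_le_mul_of_nonneg_right h6 ?_
      rw [← h5]
      exact hnn _ h4
    refine (Finset.sum_le_sum h3).trans ?_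
    have hinj : Set.InjOn e ((univ : Finset (Finset ι)).filter
        (fun R => ∏ i ∈ R, q i ≤ B) : Set (Finset ι)) := by
      intro R hR R' hR' h
      exact he R R' (Finset.mem_filter.1 (Finset.mem_coe.1 hR)).2
        (Finset.mem_filter.1 (Finset.mem_coe.1 hR')).2 h
    rw [← Finset.sum_image (f := fun j => Q.c j * klr y x 1 M (Q.m j)) hinj]
    refine Finset.sum_le_sum_of_subset_of_nonneg ?_ fun i hi _ =>
      mul_nonneg (hQ.hc i hi) (hnn i hi)
    intro j hj
    obtain ⟨R, hR, rfl⟩ := Finset.mem_image.1 hj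
    exact (hfam R (Finset.mem_filter.1 hR).2).1
  have h3 : C0 * ∑ R : Finset ι with ∏ i ∈ R, q i ≤ B, b R * klr y x 1 M (∏ i ∈ R, q i) ≤
      kli y (Vale.Agent.P042.H945.rst x M (cellP Q M x D w u v)) 1 M + ac := by linarith
  rw [inv_mul_eq_div, le_div_iff₀ hC0, mul_comm]
  exact h3

end Vale.Agent.P042.H742
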