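import Vale.Agent.P042.H742.BNum
import Vale.Agent.P042.H742.MeiSt

/-!
# P042, seam [D] → [B]: the hypotheses of block [B] for the law of a cell of the maximiser

`bhyp_state`: for one family of multi-coordinate entropy terms of the functional (rates `t`, weight
`C0`, moduli `∏ i ∈ R, q i ≤ B`), the image of the cell law on `∀ i, V i` satisfies `BHyp`.
-/

set_option autoImplicit false
set_option linter.unusedSectionVars false

namespace Vale.Agent.P042.H742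

open Finset Vale.Agent.P042.H945 Vale.Agent.P042.H858 Vale.Agent.P042.H461 Vale.Agent.P042.H416
  Vale.Agent.P042.H365 Vale.Agent.P042.H678
open Vale.Agent.P042.H599 (cm Law)

variable {κ : Type} {Q : Par κ} {N d M : ℕ} {A0 : Finset ℤ} {a : ℤ} {x : ℕ → ℝ}
  {ι : Type*} [Fintype ι] [DecidableEq ι] {V : ι → Type*} [∀ i, Fintype (V i)]
  [∀ i, DecidableEq (V i)] {lam : ∀ i, V i → ℝ} {t Mi : ι → ℝ}

/-- **block [B] at the extremal state, one family** -/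
theorem bhyp_state {L : ℝ} (hm : Mx Q N A0 d a M x L) {OB : ℝ} (hOB : ∀ S, Om Q d S ≤ OB)
    {D w u v : ℕ} (hD : 1 ≤ D) (hu : 1 ≤ u) (hv : v ≤ M)
    (huv : 2 * Q.Mm * Q.lam D ≤ v + 1 - u) (hcop : ∀ i ∈ Q.I, Nat.Coprime (Q.m i) D)
    (hcW : ∀ p ∈ Q.W, Nat.Coprime p D) (hms : ms x M (cellP Q M x D w u v) ≠ 0)
    -- the residue maps and the family
    {q : ι → ℕ} (hq : ∀ i, 0 < q i) (hc : Pairwise fun i j => (q i).Coprime (q j))
    {r : ∀ i, ℕ → V i} (hr : ∀ i n m, r i n = r i m ↔ n ≡ m [MOD q i])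
    (ht0 : ∀ i, 0 < t i) (ht1 : ∀ i, t i ≤ 1) {B : ℕ} {e : Finset ι → κ}
    {C0 ac Λ q0 Lr : ℝ} {Dd : ℕ} (hC0 : 0 < C0)
    (he : ∀ R R' : Finset ι, ∏ i ∈ R, q i ≤ B → ∏ i ∈ R', q i ≤ B → e R = e R' → R = R')
    (hfam : ∀ R : Finset ι, ∏ i ∈ R, q i ≤ B →
      e R ∈ Q.I ∧ Q.m (e R) = ∏ i ∈ R, q i ∧ C0 * bw t R ≤ Q.c (e R))
    (hq0 : ∑ R with ¬ ∏ i ∈ R, q i ≤ B, bw t R ≤ q0)
    -- the size of the cell
    (hK : Real.exp (6 * Λ) * ((v + 1 - u : ℕ) : ℝ) ≤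
      Real.exp (Q.D0 / 4) * (D * M * ms x M (cellP Q M x D w u v)))
    (hac0 : 0 ≤ ac)
    (hac : cellCost Q M x L OB (Real.exp (6 * Λ) / ms x M (cellP Q M x D w u v)) D w u v ≤ ac)
    -- the reference law
    (hR : Ref lam Lr)
    (hI : I1M lam Mi Dd (pf r (Vale.Agent.P042.H945.rst x M (cellP Q M x D w u v)) 1 M))
    (hMi : ∀ i, 1 ≤ Mi i)
    -- numbers
    (hLr : 1 ≤ Lr) (hDd : 1 ≤ Dd) (hΛ10 : 10 ≤ Λ)
    (hΛ : Dd * (Lr + Real.log (Fintype.card ι * Dd)) + 3 ≤ Λ) (haL : ac ≤ Lr)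
    (hn : 20000 * Λ ^ 2 ≤ C0) (hq' : 1408 * q0 * Λ ≤ 1) :
    BHyp lam (pf r (Vale.Agent.P042.H945.rst x M (cellP Q M x D w u v)) 1 M) t Mi Lr Λ
      (1 / (704 * Λ)) Λ (Real.exp (-(3 * Λ))) Dd := by
  have hx := hm.mx.1.law
  have hmu : Law (Vale.Agent.P042.H945.rst x M (cellP Q M x D w u v)) 1 M :=
    rst_law hx (ms_pos_of hx hms)
  have hΛ0 : 0 < Λ := by linarith
  refine bhyp_int hq hc hr hmu hx (fun i _ h0 => ?_) ht0 ht1 hq0 (fun nu hnu hle => ?_) hR hI hMi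
    hLr hDd hΛ10 hΛ hac0 haL (inv_nonneg.2 hC0.le) ?_ hq'
  · unfold Vale.Agent.P042.H945.rst
    split_ifs
    · rw [h0, zero_div]
    · rfl
  · exact mei_family hm hOB hD hu hv huv hcop hcW hms (Real.one_le_exp (by positivity)) hK hC0
      he hfam hac hnu hle
  · rw [mul_comm, ← mul_assoc, mul_inv_le_iff₀ hC0]
    linarith

end Vale.Agent.P042.H742
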