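import Vale.Agent.P042.H742.RowB

/-!
# P042, block [B]: rows and totals of the connected densities

`block_row`: all rows `(i, a)` and all degrees at once, from the multi-coordinate entropy inequality
for the replica laws (Tens).
`rows_sup` = (D1), `rows_total` = (D2).
-/

set_option autoImplicit false
set_option linter.unusedSectionVars false

namespace Vale.Agent.P042.H742

open Finset Vale.Agent.P042.H461 Vale.Agent.P042.H416
open Vale.Agent.P042.H779 (marg m1)

variable {ι : Type*} [Fintype ι] [DecidableEq ι] {V : ι → Type*} [∀ i, Fintype (V i)]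
  [∀ i, DecidableEq (V i)]

/-- relative entropy of a push-forward: data processing -/
theorem KL_push_le {X : Type*} [Fintype X] {Y : Type*} [Fintype Y] [DecidableEq Y] (f : X → Y)
    {nu mu : X → ℝ} (hnu : ∀ x, 0 ≤ nu x) (hmu : ∀ x, 0 ≤ mu x) (hac : AC nu mu) :
    KL (push f nu) (push f mu) ≤ KL nu mu := by
  have h1 : KL (push f nu) (push f mu) = ∑ x, nu x * Real.log (push f nu (f x) / push f mu (f x)) := by
    unfold KL
    exact sum_push f nu fun y => Real.log (push f nu y / push f mu y)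
  -- compare with the tilted mass
  have h2 : ∀ x, nu x * Real.log (push f nu (f x) / push f mu (f x)) ≤
      nu x * Real.log (nu x / mu x) - nu x +
        mu x * (push f nu (f x) / push f mu (f x)) := by
    intro x
    by_cases hx : nu x = 0
    · rw [hx, zero_mul, zero_mul, sub_zero, zero_add]
      exact mul_nonneg (hmu x) (div_nonneg (push_nonneg hnu f _) (push_nonneg hmu f _))
    · have hnx : 0 < nu x := lt_of_le_of_ne (hnu x) (Ne.symm hx)
      have hmx : 0 < mu x := lt_of_le_of_ne (hmu x) fun h => hx (hac x h.symm)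
      have hpn : 0 < push f nu (f x) := lt_of_lt_of_le hnx (le_push hnu f x)
      have hpm : 0 < push f mu (f x) := lt_of_lt_of_le hmx (le_push hmu f x)
      set r := push f nu (f x) / push f mu (f x) with hr
      have hr0 : 0 < r := div_pos hpn hpm
      have h3 : Real.log r - Real.log (nu x / mu x) ≤ r / (nu x / mu x) - 1 := by
        rw [← Real.log_div hr0.ne' (div_pos hnx hmx).ne']
        exact Real.log_le_sub_one_of_pos (div_pos hr0 (div_pos hnx hmx))
      have h4 := mul_le_mul_of_nonneg_left h3 hnx.le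
      have h5 : nu x * (r / (nu x / mu x) - 1) = mu x * r - nu x := by
        field_simp
      rw [h5, mul_sub] at h4
      linarith
  rw [h1]
  refine (Finset.sum_le_sum fun x _ => h2 x).trans ?_
  rw [Finset.sum_add_distrib, Finset.sum_sub_distrib]
  have h3 : ∑ x, mu x * (push f nu (f x) / push f mu (f x)) ≤ ∑ x, nu x := by
    rw [← sum_push f mu fun y => push f nu y / push f mu y, ← sum_push_one f nu]
    refine Finset.sum_le_sum fun y _ => ?_
    by_cases h : push f mu y = 0
    · rw [h, zero_mul]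
      exact push_nonneg hnu f y
    · rw [mul_div_cancel₀ _ h]
  have h4 : KL nu mu = ∑ x, nu x * Real.log (nu x / mu x) := rfl
  rw [h4]
  linarith

/-- **[B], all rows**: the testing inequality for all `(i, a)` and all degrees -/
theorem block_row {mu : (∀ i, V i) → ℝ} (hmu : IsLaw mu) {lam : ∀ i, V i → ℝ}
    {L M Λ ε κ δ : ℝ} {D0 : ℕ} {t : ι → ℝ} (hR : Ref lam L) (hI : I1 lam M D0 mu) (hM : 1 ≤ M)
    (ht0 : ∀ i, 0 < t i) (ht1 : ∀ i, t i ≤ 1) (hε : 0 ≤ ε) (hκ : 0 ≤ κ) (hL : 0 ≤ L)
    (hΛ : D0 * (L + Real.log (Fintype.card ι * D0)) + 3 ≤ Λ)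
    (hT : ∀ N, N ≤ D0 → MEIr (ι := ι × Fin N) (V := fun p => V p.1) (rt t N) ε κ δ (rep mu N))
    (hδ : δ ≤ Real.exp (-(3 * Λ))) (hs : 176 * ε * (κ + 3 * Λ) ≤ 1)
    {d : ℕ} (hd : 1 ≤ d) (hD : d + 1 ≤ D0) (i : ι) (a : V i) (hm : 0 < m1 mu i a)
    {k : Finset ι → (∀ i, V i) → ℝ}
    (hkdep : ∀ C : Finset ι, DependsOn (k C) ((insert i C : Finset ι) : Set ι))
    (hk : IsCumI lam mu i k) :
    lam i a * rowQ lam t i a k d ≤
      12 * M * (d.factorial : ℝ) * ((d + 1) * M) ^ d * (m1 mu i a * Iia t mu i a) := by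
  have hN : NearOrth (rlam lam (d + 1)) (rt t (d + 1)) M D0 (rep mu (d + 1)) := by
    refine Vale.Agent.P042.H678.near_orth (isLaw_rep hmu (d + 1)) (hR.rep (d + 1))
      (hI.rep hmu (d + 1)) hM (fun p => ht0 p.1) (fun p => ht1 p.1) hε hκ hL ?_ (hT _ hD) hδ hs
    refine le_trans ?_ hΛ
    have h1 : Real.log (Fintype.card (ι × Fin (d + 1))) ≤ Real.log (Fintype.card ι * D0) := by
      have : Nonempty ι := ⟨i⟩
      have hc : (0 : ℝ) < Fintype.card ι := by exact_mod_cast Fintype.card_pos
      rw [Fintype.card_prod, Fintype.card_fin, Nat.cast_mul]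
      refine Real.log_le_log (mul_pos hc (by positivity)) ?_
      exact mul_le_mul_of_nonneg_left (by exact_mod_cast hD) hc.le
    have h2 : (0 : ℝ) ≤ D0 := Nat.cast_nonneg _
    have h3 := mul_le_mul_of_nonneg_left (add_le_add_right h1 L) h2
    linarith
  have h := row_test hmu hR hI hM ht0 ht1 hd hD hN i a hm hkdep hk (le_refl (Iia t mu i a))
  refine h.trans (le_of_eq ?_)
  ring

/-- (D2): the totals -/
theorem rows_total {mu : (∀ i, V i) → ℝ} (hmu : IsLaw mu) {lam : ∀ i, V i → ℝ}
    {L M Λ ε κ δ : ℝ} {D0 : ℕ} {t : ι → ℝ} (hR : Ref lam L) (hI : I1 lam M D0 mu) (hM : 1 ≤ M)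
    (ht0 : ∀ i, 0 < t i) (ht1 : ∀ i, t i ≤ 1) (hε : 0 ≤ ε) (hκ : 0 ≤ κ) (hL : 0 ≤ L)
    (hΛ : D0 * (L + Real.log (Fintype.card ι * D0)) + 3 ≤ Λ)
    (hT : ∀ N, N ≤ D0 → MEIr (ι := ι × Fin N) (V := fun p => V p.1) (rt t N) ε κ δ (rep mu N))
    (hδ : δ ≤ Real.exp (-(3 * Λ))) (hs : 176 * ε * (κ + 3 * Λ) ≤ 1)
    {d : ℕ} (hd : 1 ≤ d) (hD : d + 1 ≤ D0) {k : ι → Finset ι → (∀ i, V i) → ℝ}
    (hkdep : ∀ i, ∀ C : Finset ι, DependsOn (k i C) ((insert i C : Finset ι) : Set ι))
    (hk : ∀ i, IsCumI lam mu i (k i))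
    (hk0 : ∀ i a, m1 mu i a = 0 → lam i a * rowQ lam t i a (k i) d = 0) {PP : ℝ}
    (hPP : ∑ i, t i * ∑ a, m1 mu i a * Iia t mu i a ≤ PP) :
    ∑ i, t i * ∑ a, lam i a * rowQ lam t i a (k i) d ≤
      12 * M * (d.factorial : ℝ) * ((d + 1) * M) ^ d * PP := by
  have hp : Vale.Agent.P042.H779.IsProb mu := ⟨hmu.1, hmu.2⟩
  have hM0 : 0 ≤ M := by linarith
  have hc : 0 ≤ 12 * M * (d.factorial : ℝ) * ((d + 1) * M) ^ d := by positivity
  refine le_trans ?_ (mul_le_mul_of_nonneg_left hPP hc)
  rw [Finset.mul_sum]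
  refine Finset.sum_le_sum fun i _ => ?_
  have h1 : ∑ a, lam i a * rowQ lam t i a (k i) d ≤
      12 * M * (d.factorial : ℝ) * ((d + 1) * M) ^ d * ∑ a, m1 mu i a * Iia t mu i a := by
    rw [Finset.mul_sum]
    refine Finset.sum_le_sum fun a _ => ?_
    rcases (Vale.Agent.P042.H779.m1_nonneg hp i a).eq_or_lt with h | h
    · rw [hk0 i a h.symm, ← h, zero_mul, mul_zero]
    · exact block_row hmu hR hI hM ht0 ht1 hε hκ hL hΛ hT hδ hs hd hD i a h (hkdep i) (hk i)
  calc t i * ∑ a, lam i a * rowQ lam t i a (k i) d ≤ t i * (12 * M * (d.factorial : ℝ) *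
        ((d + 1) * M) ^ d * ∑ a, m1 mu i a * Iia t mu i a) :=
        mul_le_mul_of_nonneg_left h1 (ht0 i).le
    _ = _ := by ring

/-- the densities vanish at a null atom, hence so do the connected ones -/
theorem k_null {mu : (∀ i, V i) → ℝ} (hmu : IsLaw mu) {lam : ∀ i, V i → ℝ} {i : ι} {a : V i}
    (hm : m1 mu i a = 0) {k : Finset ι → (∀ i, V i) → ℝ} (hk : IsCumI lam mu i k)
    (x : ∀ i, V i) (hx : x i = a) (hW : W lam x ≠ 0) (C : Finset ι) (hC : i ∉ C) : k C x = 0 := by
  have hp : Vale.Agent.P042.H779.IsProb mu := ⟨hmu.1, hmu.2⟩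
  have hg : ∀ D : Finset ι, gr lam mu (insert i D) x = 0 := by
    intro D
    unfold gr
    have h1 := Vale.Agent.P042.H779.marg_le_m1 hp (Finset.mem_insert_self i D) x
    rw [hx, hm] at h1
    have h2 := Vale.Agent.P042.H779.marg_nonneg hp (insert i D) x
    rw [le_antisymm h1 h2, zero_div]
  have hg0 : gr lam mu ∅ x = 1 := by
    unfold gr lw
    rw [Vale.Agent.P042.H779.marg_empty hp, Finset.prod_empty, div_one]
  induction C using Finset.strongInduction with
  | H C ih =>
    have h1 := hk C hC x hW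
    rw [hg, Finset.sum_eq_single C] at h1
    · rw [Finset.sdiff_self, hg0, mul_one] at h1
      exact h1.symm
    · intro D hD hDC
      have hss : D ⊂ C := lt_of_le_of_ne (Finset.mem_powerset.1 hD) hDC
      rw [ih D hss fun h => hC (hss.1 h), zero_mul]
    · intro h
      exact absurd (Finset.mem_powerset_self C) h

theorem rowQ_null {mu : (∀ i, V i) → ℝ} (hmu : IsLaw mu) {lam : ∀ i, V i → ℝ} {t : ι → ℝ}
    {i : ι} {a : V i} (hm : m1 mu i a = 0) {k : Finset ι → (∀ i, V i) → ℝ}
    (hk : IsCumI lam mu i k) (d : ℕ) : lam i a * rowQ lam t i a k d = 0 := by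
  by_cases hla : lam i a = 0
  · rw [hla, zero_mul]
  have h1 : rowQ lam t i a k d = 0 := by
    unfold rowQ
    refine Finset.sum_eq_zero fun e he => ?_
    have hie : i ∉ e := (Finset.mem_filter.1 he).2.2
    have h2 : ∑ x, W lam x * k e (Function.update x i a) ^ 2 = 0 := by
      refine Finset.sum_eq_zero fun x _ => ?_
      by_cases hW : W lam x = 0
      · rw [hW, zero_mul]
      have hW' : W lam (Function.update x i a) ≠ 0 := by
        have h3 := W_update (lam := lam) x i a
        intro h4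
        rw [h4, zero_mul] at h3
        exact (mul_ne_zero hW hla) h3.symm
      rw [k_null hmu hm hk _ (Function.update_self _ _ _) hW' e hie]
      ring
    rw [h2, mul_zero]
  rw [h1, mul_zero]

/-- the entropy of testing is at most `- log` of the atom -/
theorem Iia_le_log {mu : (∀ i, V i) → ℝ} (hmu : IsLaw mu) {t : ι → ℝ} (ht0 : ∀ i, 0 < t i)
    (ht1 : ∀ i, t i ≤ 1) {i : ι} {a : V i} (hm : 0 < m1 mu i a) :
    Iia t mu i a ≤ -Real.log (m1 mu i a) := by
  have hm' : 0 < ∑ x ∈ ev i a, mu x := by rw [mass_ev]; exact hm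
  have h1 : ∀ R : Finset ι, bw t R * KL (push (rst R) (res (ev i a) mu)) (push (rst R) mu) ≤
      bw t R * -Real.log (m1 mu i a) := by
    intro R
    refine mul_le_mul_of_nonneg_left ?_ (bw_nonneg (fun i => (ht0 i).le) ht1 R)
    have h2 := KL_push_le (rst R) (isLaw_res hmu.1 hm').1 hmu.1 (AC_res (ev i a) mu)
    rw [KL_res hmu.1 hm', mass_ev] at h2
    exact h2
  unfold Iia
  refine (Finset.sum_le_sum fun R _ => h1 R).trans (le_of_eq ?_)
  rw [← Finset.sum_mul, sum_bw, one_mul]

/-- (D1): the rows, from `MEIr` for `mu` on the events `x_i = a` -/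
theorem rows_sup {mu : (∀ i, V i) → ℝ} (hmu : IsLaw mu) {lam : ∀ i, V i → ℝ}
    {L M Λ ε κ δ : ℝ} {D0 : ℕ} {t : ι → ℝ} (hR : Ref lam L) (hI : I1 lam M D0 mu) (hM : 1 ≤ M)
    (ht0 : ∀ i, 0 < t i) (ht1 : ∀ i, t i ≤ 1) (hε : 0 ≤ ε) (hκ : 0 ≤ κ) (hL : 0 ≤ L)
    (hΛ : D0 * (L + Real.log (Fintype.card ι * D0)) + 3 ≤ Λ)
    (hT : ∀ N, N ≤ D0 → MEIr (ι := ι × Fin N) (V := fun p => V p.1) (rt t N) ε κ δ (rep mu N))
    (hmei : MEIr t ε κ δ mu)
    (hδ : δ ≤ Real.exp (-(3 * Λ))) (hs : 176 * ε * (κ + 3 * Λ) ≤ 1)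
    {d : ℕ} (hd : 1 ≤ d) (hD : d + 1 ≤ D0) (i : ι) (a : V i) (hla : lam i a ≠ 0)
    {k : Finset ι → (∀ i, V i) → ℝ}
    (hkdep : ∀ C : Finset ι, DependsOn (k C) ((insert i C : Finset ι) : Set ι))
    (hk : IsCumI lam mu i k) :
    rowQ lam t i a k d ≤ 12 * M * (d.factorial : ℝ) * ((d + 1) * M) ^ d *
      (ε * (M * (κ + L) + 1) + 2 * Real.exp (L - Λ)) := by
  have hp : Vale.Agent.P042.H779.IsProb mu := ⟨hmu.1, hmu.2⟩
  have hM0 : 0 ≤ M := by linarith
  have hc : 0 ≤ 12 * M * (d.factorial : ℝ) * ((d + 1) * M) ^ d := by positivity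
  have hla0 : 0 < lam i a := lt_of_le_of_ne (hR.nonneg i a) (Ne.symm hla)
  have hat : Real.exp (-L) ≤ lam i a := (hR.atoms i a).resolve_left hla
  have hX : 0 ≤ ε * (M * (κ + L) + 1) + 2 * Real.exp (L - Λ) := by positivity
  rcases (Vale.Agent.P042.H779.m1_nonneg hp i a).eq_or_lt with hm | hm
  · have h1 := rowQ_null (t := t) hmu hm.symm hk d
    have h2 : rowQ lam t i a k d = 0 := (mul_eq_zero.1 h1).resolve_left hla
    rw [h2]
    exact mul_nonneg hc hX
  have hrow := block_row hmu hR hI hM ht0 ht1 hε hκ hL hΛ hT hδ hs hd hD i a hm hkdep hk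
  -- the weight of the atom
  set m := m1 mu i a with hmdef
  have hm1 : m ≤ 1 := by
    rw [hmdef, ← Vale.Agent.P042.H779.m1_sum hp i]
    exact Finset.single_le_sum (fun b _ => Vale.Agent.P042.H779.m1_nonneg hp i b)
      (Finset.mem_univ a)
  have hmM : m ≤ M * lam i a := by
    obtain ⟨x0⟩ : Nonempty (∀ i, V i) := by
      by_contra hc'
      rw [not_nonempty_iff] at hc'
      have := hmu.2
      simp at this
    have h1 := hI {i} (by rw [Finset.card_singleton]; omega) (Function.update x0 i a)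
    have h2 : marg mu {i} (Function.update x0 i a) = m := by
      rw [hmdef]
      unfold marg m1
      refine Finset.sum_congr rfl fun y _ => ?_
      simp
    have h3 : lw lam {i} (Function.update x0 i a) = lam i a := by
      unfold lw
      rw [Finset.prod_singleton, Function.update_self]
    rw [h2, h3, Finset.card_singleton, pow_one] at h1
    exact h1
  have key : m * Iia t mu i a ≤ lam i a * (ε * (M * (κ + L) + 1) + 2 * Real.exp (L - Λ)) := by
    by_cases hδm : δ ≤ m
    · -- the entropy inequality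
      have hev : 0 < ∑ x ∈ ev i a, mu x := by rw [mass_ev]; exact hm
      have h1 : Iia t mu i a ≤ ε * (κ - Real.log m) := by
        have h2 := hmei (ev i a) hev (by rw [mass_ev]; exact hδm)
        rw [mass_ev] at h2
        exact h2
      have h2 : m * Iia t mu i a ≤ m * (ε * (κ - Real.log m)) :=
        mul_le_mul_of_nonneg_left h1 hm.le
      -- - m log m = - m log lam - m log (m / lam)
      have h3 : -(m * Real.log m) ≤ m * L + lam i a := by
        have h4 : Real.log m = Real.log (lam i a) + Real.log (m / lam i a) := by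
          rw [← Real.log_mul hla0.ne' (div_pos hm hla0).ne', mul_div_cancel₀ _ hla0.ne']
        have h5 : -L ≤ Real.log (lam i a) := by
          rw [← Real.log_exp (-L)]
          exact Real.log_le_log (Real.exp_pos _) hat
        have h6 : 1 - (m / lam i a)⁻¹ ≤ Real.log (m / lam i a) :=
          Real.one_sub_inv_le_log_of_pos (div_pos hm hla0)
        have h7 : m * (1 - (m / lam i a)⁻¹) = m - lam i a := by
          field_simp
        have h8 := mul_le_mul_of_nonneg_left h6 hm.le
        have h9 := mul_le_mul_of_nonneg_left h5 hm.le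
        rw [h4, mul_add]
        rw [h7] at h8
        linarith
      have h4 : m * (ε * (κ - Real.log m)) = ε * (m * κ + -(m * Real.log m)) := by ring
      have h5 : m * κ + -(m * Real.log m) ≤ M * lam i a * (κ + L) + lam i a := by
        have h6 := mul_le_mul_of_nonneg_right hmM (add_nonneg hκ hL)
        linarith
      have h6 := mul_le_mul_of_nonneg_left h5 hε
      have h7 : 0 ≤ lam i a * (2 * Real.exp (L - Λ)) := by positivity
      rw [h4] at h2
      calc m * Iia t mu i a ≤ ε * (M * lam i a * (κ + L) + lam i a) := h2.trans h6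
        _ ≤ ε * (M * lam i a * (κ + L) + lam i a) + lam i a * (2 * Real.exp (L - Λ)) := by linarith
        _ = _ := by ring
    · push Not at hδm
      have h1 := mul_le_mul_of_nonneg_left (Iia_le_log hmu ht0 ht1 hm) hm.le
      -- - m log m ≤ 2 √m
      have h2 : m * -Real.log m ≤ 2 * Real.sqrt m := by
        have h3 : Real.log (Real.sqrt m) = Real.log m / 2 := Real.log_sqrt hm.le
        have hs0 : 0 < Real.sqrt m := Real.sqrt_pos.2 hm
        have h4 : 1 - (Real.sqrt m)⁻¹ ≤ Real.log (Real.sqrt m) :=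
          Real.one_sub_inv_le_log_of_pos hs0
        have h5 : m * (1 - (Real.sqrt m)⁻¹) = m - Real.sqrt m := by
          have h6 : m = Real.sqrt m * Real.sqrt m := (Real.mul_self_sqrt hm.le).symm
          have h7 : m * (Real.sqrt m)⁻¹ = Real.sqrt m := by
            nth_rewrite 1 [h6]
            rw [mul_assoc, mul_inv_cancel₀ hs0.ne', mul_one]
          rw [mul_sub, mul_one, h7]
        have h8 := mul_le_mul_of_nonneg_left h4 hm.le
        rw [h5, h3] at h8
        linarith
      have h3 : Real.sqrt m ≤ Real.exp (-Λ) := by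
        rw [show Real.exp (-Λ) = Real.sqrt (Real.exp (-(2 * Λ))) by
          rw [Real.sqrt_eq_rpow, ← Real.exp_mul]
          congr 1
          ring]
        refine Real.sqrt_le_sqrt ((hδm.le.trans hδ).trans (Real.exp_le_exp.2 ?_))
        have : 0 ≤ Λ := by
          refine le_trans ?_ hΛ
          have h4 : 0 ≤ Real.log (Fintype.card ι * D0) := by
            rw [← Nat.cast_mul]
            exact Real.log_natCast_nonneg _
          positivity
        linarith
      have h4 : Real.exp (-Λ) = Real.exp (-L) * Real.exp (L - Λ) := by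
        rw [← Real.exp_add]
        congr 1
        ring
      have h5 : 2 * Real.sqrt m ≤ lam i a * (2 * Real.exp (L - Λ)) := by
        have h6 := mul_le_mul_of_nonneg_right hat (Real.exp_pos (L - Λ)).le
        rw [h4] at h3
        linarith
      have h6 : 0 ≤ lam i a * (ε * (M * (κ + L) + 1)) := by positivity
      have h7 : lam i a * (ε * (M * (κ + L) + 1) + 2 * Real.exp (L - Λ)) =
          lam i a * (ε * (M * (κ + L) + 1)) + lam i a * (2 * Real.exp (L - Λ)) := by ring
      rw [h7]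
      linarith
  have h1 := mul_le_mul_of_nonneg_left key hc
  have h2 : lam i a * rowQ lam t i a k d ≤ lam i a * (12 * M * (d.factorial : ℝ) *
      ((d + 1) * M) ^ d * (ε * (M * (κ + L) + 1) + 2 * Real.exp (L - Λ))) := by
    refine hrow.trans (h1.trans (le_of_eq ?_))
    ring
  exact le_of_mul_le_mul_left h2 hla0

end Vale.Agent.P042.H742
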