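import Vale.Agent.P042.H742.Test
import Vale.Agent.P042.H678.NOTest
import Vale.Agent.P042.H540.RotG

/-!
# P042, block [B]: the rows of the connected densities

`rowQ lam t i a k d = ∑_{|e| = d, i ∉ e} (∏_e t) ∑_x W x * k_e(x[i:=a])^2`, `k_e = κ_{i+e}(a, ·)`.
Main theorem: `lam i a * rowQ ≤ 12 M d! ((d+1) M)^d m1(i,a) I_{i,a}`.
-/

set_option autoImplicit false
set_option linter.unusedSectionVars false

namespace Vale.Agent.P042.H742

open Finset Vale.Agent.P042.H461 Vale.Agent.P042.H416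
open Vale.Agent.P042.H779 (marg m1)

variable {ι : Type*} [Fintype ι] [DecidableEq ι] {V : ι → Type*} [∀ i, Fintype (V i)]
  [∀ i, DecidableEq (V i)]

/-- the row energy -/
noncomputable def rowQ (lam : ∀ i, V i → ℝ) (t : ι → ℝ) (i : ι) (a : V i)
    (k : Finset ι → (∀ i, V i) → ℝ) (d : ℕ) : ℝ :=
  ∑ e : Finset ι with e.card = d ∧ i ∉ e, (∏ j ∈ e, t j) *
    ∑ x, W lam x * k e (Function.update x i a) ^ 2

/-- the kernels tested -/
noncomputable def psiB (t : ι → ℝ) (i : ι) (a : V i) (k : Finset ι → (∀ i, V i) → ℝ) (d : ℕ)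
    (e : Finset ι) (x : ∀ i, V i) : ℝ :=
  if e.card = d ∧ i ∉ e then (∏ j ∈ e, t j) * k e (Function.update x i a) else 0

theorem psiB_dep {t : ι → ℝ} {i : ι} {a : V i} {k : Finset ι → (∀ i, V i) → ℝ} {d : ℕ}
    (hk : ∀ C : Finset ι, DependsOn (k C) ((insert i C : Finset ι) : Set ι)) (e : Finset ι) :
    DependsOn (psiB t i a k d e) (e : Set ι) := by
  intro x y hxy
  unfold psiB
  by_cases h : e.card = d ∧ i ∉ e
  · rw [if_pos h, if_pos h]
    congr 1
    refine hk e fun j hj => ?_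
    by_cases hji : j = i
    · subst hji
      simp
    · rw [Function.update_of_ne hji, Function.update_of_ne hji]
      refine hxy j ?_
      have : j ∈ insert i e := by simpa using hj
      rw [Finset.mem_insert] at this
      exact_mod_cast this.resolve_left hji
  · rw [if_neg h, if_neg h]

theorem rowQ_nonneg {lam : ∀ i, V i → ℝ} (hl : ∀ i a, 0 ≤ lam i a) {t : ι → ℝ}
    (ht : ∀ i, 0 ≤ t i) (i : ι) (a : V i) (k : Finset ι → (∀ i, V i) → ℝ) (d : ℕ) :
    0 ≤ rowQ lam t i a k d := by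
  refine Finset.sum_nonneg fun e _ => mul_nonneg (Finset.prod_nonneg fun j _ => ht j) ?_
  exact Finset.sum_nonneg fun x _ => mul_nonneg (W_nonneg hl x) (sq_nonneg _)

theorem nrm_psiB {lam : ∀ i, V i → ℝ} {t : ι → ℝ} (ht : ∀ i, 0 < t i) (i : ι) (a : V i)
    (k : Finset ι → (∀ i, V i) → ℝ) (d : ℕ) :
    nrm lam t (psiB t i a k d) = rowQ lam t i a k d := by
  unfold nrm rowQ
  rw [Finset.sum_filter]
  refine Finset.sum_congr rfl fun e _ => ?_
  by_cases h : e.card = d ∧ i ∉ e
  · rw [if_pos h]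
    have h1 : ∀ x, W lam x * psiB t i a k d e x ^ 2 =
        (∏ j ∈ e, t j) ^ 2 * (W lam x * k e (Function.update x i a) ^ 2) := by
      intro x
      unfold psiB
      rw [if_pos h]
      ring
    rw [Finset.sum_congr rfl fun x _ => h1 x, ← Finset.mul_sum]
    have h2 : ∏ j ∈ e, t j ≠ 0 := Finset.prod_ne_zero_iff.2 fun j _ => (ht j).ne'
    field_simp
  · rw [if_neg h]
    have h1 : ∀ x, W lam x * psiB t i a k d e x ^ 2 = 0 := by
      intro x
      unfold psiB
      rw [if_neg h]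
      ring
    rw [Finset.sum_congr rfl fun x _ => h1 x]
    simp

theorem test_psiB (lam : ∀ i, V i → ℝ) (t : ι → ℝ) (i : ι) (a : V i)
    (k : Finset ι → (∀ i, V i) → ℝ) (d : ℕ) :
    ∑ e, ∑ x, W lam x * (psiB t i a k d e x * k e (Function.update x i a)) =
      rowQ lam t i a k d := by
  unfold rowQ
  rw [Finset.sum_filter]
  refine Finset.sum_congr rfl fun e _ => ?_
  by_cases h : e.card = d ∧ i ∉ e
  · rw [if_pos h, Finset.mul_sum]
    refine Finset.sum_congr rfl fun x _ => ?_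
    unfold psiB
    rw [if_pos h]
    ring
  · rw [if_neg h]
    refine Finset.sum_eq_zero fun x _ => ?_
    unfold psiB
    rw [if_neg h]
    ring

/-- absolute continuity of all marginals from (I1) for single coordinates -/
theorem I1.ac {lam : ∀ i, V i → ℝ} {M : ℝ} {D0 : ℕ} {mu : (∀ i, V i) → ℝ} (hmu : IsLaw mu)
    (h : I1 lam M D0 mu) (hD : 1 ≤ D0) (A : Finset ι) (x : ∀ i, V i) (h0 : lw lam A x = 0) :
    marg mu A x = 0 := by
  unfold lw at h0
  rw [Finset.prod_eq_zero_iff] at h0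
  obtain ⟨i, hi, h1⟩ := h0
  have h2 := h {i} (by rw [Finset.card_singleton]; exact hD) x
  unfold lw at h2
  rw [Finset.prod_singleton, h1, mul_zero] at h2
  have hp : Vale.Agent.P042.H779.IsProb mu := ⟨hmu.1, hmu.2⟩
  have h3 := Vale.Agent.P042.H779.marg_anti hp (Finset.singleton_subset_iff.2 hi) x
  exact le_antisymm (h3.trans h2) (Vale.Agent.P042.H779.marg_nonneg hp A x)

theorem marg_rep_single {mu : (∀ i, V i) → ℝ} (hmu : IsLaw mu) {N : ℕ} (i : ι) (r0 : Fin N)
    (w : ∀ p : ι × Fin N, V p.1) :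
    marg (rep mu N) {(i, r0)} w = m1 mu i (w (i, r0)) := by
  have hp : Vale.Agent.P042.H779.IsProb mu := ⟨hmu.1, hmu.2⟩
  rw [rep_eq_rps, marg_rps, Finset.prod_eq_single r0]
  · unfold marg m1
    refine Finset.sum_congr rfl fun y _ => ?_
    have h1 : (∀ j ∈ sl ({(i, r0)} : Finset (ι × Fin N)) r0, y j = sly w r0 j) ↔
        y i = w (i, r0) := by
      constructor
      · intro h
        exact h i (mem_sl.2 (Finset.mem_singleton_self _))
      · intro h j hj
        have h2 := mem_sl.1 hj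
        rw [Finset.mem_singleton, Prod.mk.injEq] at h2
        obtain ⟨rfl, _⟩ := h2
        exact h
    by_cases h : y i = w (i, r0)
    · rw [if_pos h, if_pos (h1.2 h)]
    · rw [if_neg h, if_neg fun h2 => h (h1.1 h2)]
  · intro r _ hr
    have h1 : sl ({(i, r0)} : Finset (ι × Fin N)) r = ∅ := by
      ext j
      simp only [mem_sl, Finset.mem_singleton, Prod.mk.injEq, Finset.notMem_empty, iff_false]
      rintro ⟨_, h2⟩
      exact hr h2
    rw [h1]
    exact Vale.Agent.P042.H779.marg_empty hp _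
  · intro h
    exact absurd (Finset.mem_univ _) h

/-- **[B], one row**: the testing inequality for the connected densities through `(i, a)` -/
theorem row_test {mu : (∀ i, V i) → ℝ} (hmu : IsLaw mu) {lam : ∀ i, V i → ℝ} {L M : ℝ} {D0 : ℕ}
    {t : ι → ℝ} (hR : Ref lam L) (hI : I1 lam M D0 mu) (hM : 1 ≤ M) (ht0 : ∀ i, 0 < t i)
    (ht1 : ∀ i, t i ≤ 1) {d : ℕ} (hd : 1 ≤ d) (hD : d + 1 ≤ D0)
    (hN : NearOrth (rlam lam (d + 1)) (rt t (d + 1)) M D0 (rep mu (d + 1)))
    (i : ι) (a : V i) (hm : 0 < m1 mu i a) {k : Finset ι → (∀ i, V i) → ℝ}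
    (hkdep : ∀ C : Finset ι, DependsOn (k C) ((insert i C : Finset ι) : Set ι))
    (hk : IsCumI lam mu i k) {K : ℝ} (hK : Iia t mu i a ≤ K) :
    lam i a * rowQ lam t i a k d ≤
      12 * M * (d.factorial : ℝ) * ((d + 1) * M) ^ d * m1 mu i a * K := by
  classical
  obtain ⟨x0⟩ : Nonempty (∀ i, V i) := by
    by_contra hc
    rw [not_nonempty_iff] at hc
    have := hmu.2
    simp at this
  -- the pin
  set w : ∀ p : ι × Fin (d + 1), V p.1 := fun p => Function.update x0 i a p.1 with hw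
  have hwi : w (i, 0) = a := by rw [hw]; simp
  set psi := psiB t i a k d with hpsi
  have hloc : ∀ e, DependsOn (psi e) (e : Set ι) := psiB_dep hkdep
  have hipsi : ∀ e, i ∈ e → psi e = 0 := by
    intro e he
    funext x
    rw [hpsi]
    unfold psiB
    rw [if_neg fun h => h.2 he]
    rfl
  have hcpsi : ∀ e, e.card ≠ d → psi e = 0 := by
    intro e he
    funext x
    rw [hpsi]
    unfold psiB
    rw [if_neg fun h => he h.1]
    rfl
  have hfam := Vale.Agent.P042.H540.isFam_rotT mu d i psi hloc hipsi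
  have hnrm := Vale.Agent.P042.H540.nrm_rotT lam hR.nonneg hR.sum_one t (fun i => (ht0 i).le) d psi
    hloc
  have htest := Vale.Agent.P042.H540.test_rotT lam hR.sum_one mu hmu.2
    (fun A x h => I1.ac hmu hI (by omega) A x h) d i k hk psi hloc hipsi hcpsi w
  rw [hwi, hpsi, test_psiB] at htest
  rw [hpsi, nrm_psiB ht0] at hnrm
  have hmarg : marg (rep mu (d + 1)) {(i, 0)} w = m1 mu i a := by
    rw [marg_rep_single hmu, hwi]
  have hcell : Vale.Agent.P042.H678.cell (ι := ι × Fin (d + 1)) (V := fun p => V p.1) {(i, 0)} w =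
      ev (ι := ι × Fin (d + 1)) (V := fun p => V p.1) (i, 0) a := by
    ext y
    unfold Vale.Agent.P042.H678.cell ev
    simp only [Finset.mem_filter, Finset.mem_univ, true_and, Finset.mem_singleton, forall_eq]
    rw [hwi]
  have hKr : ∑ R : Finset (ι × Fin (d + 1)), bw (rt t (d + 1)) R *
      KL (push (rst R) (res (Vale.Agent.P042.H678.cell (ι := ι × Fin (d + 1))
        (V := fun p => V p.1) {(i, 0)} w) (rep mu (d + 1)))) (push (rst R) (rep mu (d + 1))) ≤ K := by
    rw [hcell]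
    have h := Iia_rep (N := d + 1) t hmu hm 0
    unfold Iia at h
    rw [h]
    exact hK
  have hmain := Vale.Agent.P042.H678.testing (isLaw_rep hmu (d + 1)) (hR.rep (d + 1))
    (hI.rep hmu (d + 1)) hM (fun p => ht0 p.1) (fun p => ht1 p.1) hN
    (W' := {(i, 0)}) (w := w) (by rw [hmarg]; exact hm) hKr hd
    (by rw [Finset.card_singleton]; omega) hfam
  rw [htest, hmarg, Finset.card_singleton, pow_one] at hmain
  have hlw : lw (rlam lam (d + 1)) {(i, 0)} w = lam i a := by
    unfold lw rlam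
    rw [Finset.prod_singleton]
    show lam i (w (i, 0)) = lam i a
    rw [hwi]
  rw [hlw] at hmain
  have hQ0 := rowQ_nonneg (lam := lam) hR.nonneg (fun i => (ht0 i).le) i a k d
  set Q := rowQ lam t i a k d with hQ
  have hla := hR.nonneg i a
  have hK0 : 0 ≤ K := by
    refine le_trans (Finset.sum_nonneg fun R _ => mul_nonneg
      (bw_nonneg (fun i => (ht0 i).le) ht1 R) ?_) hK
    have hm' : 0 < ∑ x ∈ ev i a, mu x := by rw [mass_ev]; exact hm
    exact ((isLaw_res hmu.1 hm').push (rst R)).KL_nonneg (hmu.push (rst R))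
      ((AC_res (ev i a) mu).push hmu.1 (rst R))
  have hM0 : 0 ≤ M := by linarith
  have hfac : (0 : ℝ) ≤ d.factorial := Nat.cast_nonneg _
  have hRHS : 0 ≤ 12 * M * (d.factorial : ℝ) * ((d + 1) * M) ^ d * m1 mu i a * K := by
    positivity
  by_cases hLQ : lam i a * Q = 0
  · rw [hLQ]
    exact hRHS
  have hpos : 0 < lam i a * Q := lt_of_le_of_ne (mul_nonneg hla hQ0) (Ne.symm hLQ)
  have hc : 0 ≤ 12 * K * m1 mu i a * (M * lam i a) * ((d.factorial : ℝ) * M ^ d) := by positivity
  have h1 := mul_le_mul_of_nonneg_left hnrm hc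
  have h2 : (lam i a * Q) ^ 2 ≤ 12 * K * m1 mu i a * (M * lam i a) *
      ((d.factorial : ℝ) * M ^ d) * (((d : ℝ) + 1) ^ d * Q) := by
    refine hmain.trans (h1.trans (le_of_eq ?_))
    ring
  have h3 : (lam i a * Q) * (lam i a * Q) ≤ (lam i a * Q) *
      (12 * M * (d.factorial : ℝ) * ((d + 1) * M) ^ d * m1 mu i a * K) := by
    calc (lam i a * Q) * (lam i a * Q) = (lam i a * Q) ^ 2 := by ring
      _ ≤ _ := h2
      _ = _ := by rw [mul_pow]; ring
  exact le_of_mul_le_mul_left h3 hpos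

end Vale.Agent.P042.H742
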