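import Vale.Agent.P042.H564.OoRow
import Vale.Agent.P042.H365.NumH
import Vale.Agent.P042.H858.MSub
import Vale.Agent.P042.H742.BIntO

/-!
# P042, rows of types with the extra coordinate `o`, top leg at most `(2 - 4 G) p`

`rwO_low`: from block [B] at the rates `rate ((1 - G) p) ell / Kf` of one family (`t o` small), all
the hypotheses needed for the typed norms rooted at `o`, with
`r i = t i / M i ^ 2`, `K i = 2 * M i`, `θ = √(b + 1)`.
-/

set_option autoImplicit false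
set_option linter.unusedSectionVars false

namespace Vale.Agent.P042.H742

open Finset Vale.Agent.P042.H461 Vale.Agent.P042.H416 Vale.Agent.P042.H365
  Vale.Agent.P042.H161 Vale.Agent.P042.H232 Vale.Agent.P042.H564.Oo
open Vale.Agent.P042.H779 (marg m1)

/-- low exponents: `(1/2 - 3 h - c) x ≥ 0` and `(1/2 + 3 h + c) x ≤ (1 - G) p` -/
theorem low_exp {x p G h c : ℝ} (hx : 0 ≤ x) (hp : 0 ≤ p) (hG0 : 0 < G) (hG1 : G ≤ 1 / 4)
    (hxp : x ≤ (2 - 4 * G) * p) (hc : 3 * h + c ≤ G / 2) :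
    -(1 / 2) * x + h * x + 2 * (h * x) ≤ -(c * x) ∧
      -(1 / 2) * x + h * x + 2 * (h * x) ≤ -(c * x) + ((1 - G) * p - x) := by
  have h1 : (3 * h + c) * x ≤ G / 2 * x := mul_le_mul_of_nonneg_right hc hx
  have h2 : G * x ≤ 1 / 4 * x := mul_le_mul_of_nonneg_right hG1 hx
  have h3 : (1 + G) * x ≤ (1 + G) * ((2 - 4 * G) * p) :=
    mul_le_mul_of_nonneg_left hxp (by linarith)
  have h4 : 0 ≤ G ^ 2 * p := by positivity
  constructor
  · nlinarith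
  · nlinarith

/-- the leg inequality -/
theorem low_leg {x p G h c Kf σ R : ℝ} {b : ℕ} (hx : 0 ≤ x) (hp : 0 ≤ p) (hG0 : 0 < G)
    (hG1 : G ≤ 1 / 4) (hxp : x ≤ (2 - 4 * G) * p) (hc : 3 * h + c ≤ G / 2) (hb : 1 ≤ b)
    (hKf : 0 < Kf) (hσ0 : 0 < σ) (hσ : 1000 * Kf * σ * b ^ 4 ≤ 1)
    (hR : R ≤ σ * Real.exp (-(1 / 2) * x + h * x)) :
    R * (b * √((b + 1 : ℕ) : ℝ)) ^ 2 ≤
      Real.exp (-(c * x)) * (rate ((1 - G) * p) x / Kf / Real.exp (h * x) ^ 2) := by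
  obtain ⟨e1, e2⟩ := low_exp hx hp hG0 hG1 hxp hc
  have hb1 : (1 : ℝ) ≤ b := by exact_mod_cast hb
  have hs : (b * √((b + 1 : ℕ) : ℝ)) ^ 2 = (b : ℝ) ^ 2 * (b + 1) := by
    rw [mul_pow, Real.sq_sqrt (Nat.cast_nonneg _)]
    push_cast
    ring
  have hE : Real.exp (h * x) ^ 2 = Real.exp (2 * (h * x)) := by
    rw [← Real.exp_nat_mul]
    norm_num
  have h3 : σ * (b ^ 2 * (b + 1)) * Kf ≤ 1 := by
    have h4 : (b : ℝ) ^ 2 * (b + 1) ≤ 2 * b ^ 4 := by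
      have h5 : (b : ℝ) ^ 2 * (b + 1) ≤ b ^ 2 * (2 * b) :=
        mul_le_mul_of_nonneg_left (by linarith) (by positivity)
      have h6 : (b : ℝ) ^ 2 * (2 * b) = 2 * (b ^ 3 * 1) := by ring
      have h7 : 2 * ((b : ℝ) ^ 3 * 1) ≤ 2 * (b ^ 3 * b) := by gcongr
      calc _ ≤ _ := h5
        _ = _ := h6
        _ ≤ _ := h7
        _ = _ := by ring
    have h8 : σ * (b ^ 2 * (b + 1)) * Kf ≤ σ * (2 * b ^ 4) * Kf := by gcongr
    have h9 : 0 ≤ Kf * σ * b ^ 4 := by positivity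
    nlinarith
  have h4 : R * ((b : ℝ) ^ 2 * (b + 1)) * Kf ≤ Real.exp (-(1 / 2) * x + h * x) := by
    have h5 : R * ((b : ℝ) ^ 2 * (b + 1)) * Kf ≤
        (σ * Real.exp (-(1 / 2) * x + h * x)) * ((b : ℝ) ^ 2 * (b + 1)) * Kf := by gcongr
    have h6 : (σ * Real.exp (-(1 / 2) * x + h * x)) * ((b : ℝ) ^ 2 * (b + 1)) * Kf =
        (σ * (b ^ 2 * (b + 1)) * Kf) * Real.exp (-(1 / 2) * x + h * x) := by ring
    rw [h6] at h5
    exact h5.trans (mul_le_of_le_one_left (Real.exp_pos _).le h3)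
  rw [hs, hE]
  have h5 : Real.exp (-(c * x)) * (rate ((1 - G) * p) x / Kf / Real.exp (2 * (h * x))) =
      Real.exp (-(c * x)) * rate ((1 - G) * p) x / (Kf * Real.exp (2 * (h * x))) := by
    field_simp
  rw [h5, le_div_iff₀ (by positivity)]
  have h6 : Real.exp (-(1 / 2) * x + h * x) * Real.exp (2 * (h * x)) ≤
      Real.exp (-(c * x)) * rate ((1 - G) * p) x := by
    rw [← Real.exp_add]
    unfold rate
    rw [mul_min_of_nonneg _ _ (Real.exp_pos _).le, mul_one, ← Real.exp_add]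
    exact le_min (Real.exp_le_exp.2 e1) (Real.exp_le_exp.2 e2)
  calc R * ((b : ℝ) ^ 2 * (b + 1)) * (Kf * Real.exp (2 * (h * x)))
      = (R * ((b : ℝ) ^ 2 * (b + 1)) * Kf) * Real.exp (2 * (h * x)) := by ring
    _ ≤ Real.exp (-(1 / 2) * x + h * x) * Real.exp (2 * (h * x)) :=
        mul_le_mul_of_nonneg_right h4 (Real.exp_pos _).le
    _ ≤ _ := h6

/-- the same-site inequality -/
theorem low_legE {x p G h c Kf σ E : ℝ} {b : ℕ} (hx : 0 ≤ x) (hp : 0 ≤ p) (hG0 : 0 < G)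
    (hG1 : G ≤ 1 / 4) (hxp : x ≤ (2 - 4 * G) * p) (hc : 3 * h + c ≤ G / 2)
    (hKf : 1 ≤ Kf) (hσ0 : 0 < σ) (hσ : 1000 * Kf * σ * b ^ 4 ≤ 1)
    (hE : E ≤ σ * Real.exp (-x + h * x)) :
    128 * b ^ 4 * (2 * Real.exp (h * x)) ^ 2 * E ≤ Real.exp (-(c * x)) := by
  obtain ⟨e1, -⟩ := low_exp hx hp hG0 hG1 hxp hc
  have hb4 : (0 : ℝ) ≤ (b : ℝ) ^ 4 := by positivity
  have h1 : 512 * σ * b ^ 4 ≤ 1 := by
    have h2 : 0 ≤ σ * b ^ 4 := by positivity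
    have h3 : σ * b ^ 4 * 1 ≤ σ * b ^ 4 * Kf := mul_le_mul_of_nonneg_left hKf h2
    nlinarith
  have h2 : 128 * b ^ 4 * (2 * Real.exp (h * x)) ^ 2 * E ≤
      128 * b ^ 4 * (2 * Real.exp (h * x)) ^ 2 * (σ * Real.exp (-x + h * x)) := by gcongr
  refine h2.trans ?_
  have h3 : 128 * (b : ℝ) ^ 4 * (2 * Real.exp (h * x)) ^ 2 * (σ * Real.exp (-x + h * x)) =
      (512 * σ * b ^ 4) * (Real.exp (h * x) * Real.exp (h * x) * Real.exp (-x + h * x)) := by ring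
  rw [h3, ← Real.exp_add, ← Real.exp_add]
  refine (mul_le_of_le_one_left (Real.exp_pos _).le h1).trans (Real.exp_le_exp.2 ?_)
  linarith

universe v

variable {J : Type v} {ι : Type*} [Fintype ι] [DecidableEq ι] {V : ι → Type*}
  [∀ i, Fintype (V i)] [∀ i, DecidableEq (V i)]

/-- the numbers of the low types with the leg `o` -/
structure LowN (sc : ι → Option J) (ell : J → ℝ) (g c1 : ℝ) (b : ℕ) (p G h Kf σ : ℝ)
    (t M R E : ι → ℝ) : Prop where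
  uniq : ∀ i j, sc i = none → sc j = none → i = j
  ell0 : ∀ j, 0 ≤ ell j
  top : ∀ i j, sc i = some j → ell j ≤ (2 - 4 * G) * p
  Mj : ∀ i j, sc i = some j → M i = Real.exp (h * ell j)
  tj : ∀ i j, sc i = some j → t i = rate ((1 - G) * p) (ell j) / Kf
  b1 : 1 ≤ b
  p0 : 0 ≤ p
  G0 : 0 < G
  G1 : G ≤ 1 / 4
  hc : 3 * h + 2 * (c1 + g) ≤ G / 2
  Kf1 : 512 * b ≤ Kf
  s0 : 0 < σ
  s1 : 1000 * Kf * σ * b ^ 4 ≤ 1
  R0 : ∀ i, 0 ≤ R i
  E0 : ∀ i, 0 ≤ E i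
  R1 : ∀ i j, sc i = some j → R i ≤ σ * Real.exp (-(1 / 2) * ell j + h * ell j)
  E1 : ∀ i j, sc i = some j → E i ≤ σ * Real.exp (-ell j + h * ell j)
  t2 : ∀ i, sc i = none → 512 * b * t i ≤ 1
  Ro : ∀ i, sc i = none → R i * (2 * b ^ 3 * M i ^ 2) ≤ t i
  Eo : ∀ i, sc i = none → 512 * b ^ 4 * M i ^ 2 * E i ≤ 1
  root : ∀ i, sc i = none → 16 * M i ^ 2 * (R i + E i) ≤ 1

/-- **low types with the leg `o`** (helper564 #10890, (O4')) -/
theorem rwO_low {lam : ∀ i, V i → ℝ} {mu : (∀ i, V i) → ℝ} {t M : ι → ℝ} {L Λ ε κ δ : ℝ} {b : ℕ}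
    {sc : ι → Option J} {ell : J → ℝ} {g c1 p G h Kf σ : ℝ} {R E : ι → ℝ}
    (hB : BHyp lam mu t M L Λ ε κ δ (b + 1)) (hN : LowN sc ell g c1 b p G h Kf σ t M R E) :
    RwO lam mu sc ell g c1 b R E (fun i => t i / M i ^ 2) (fun i => 2 * M i)
      (√((b + 1 : ℕ) : ℝ)) L := by
  have hb := hN.b1
  have hb1 : (1 : ℝ) ≤ b := by exact_mod_cast hb
  have hθ2 : √((b + 1 : ℕ) : ℝ) ^ 2 = (b : ℝ) + 1 := by
    rw [Real.sq_sqrt (Nat.cast_nonneg _)]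
    push_cast
    ring
  have hKf := hN.Kf1
  have hKf0 : 0 < Kf := by linarith
  have hM1 := hB.M1
  have hM0 : ∀ i, 0 < M i := fun i => by linarith [hM1 i]
  have hr0 : ∀ i, 0 ≤ t i / M i ^ 2 := fun i => div_nonneg (hB.t0 i).le (sq_nonneg _)
  refine ⟨?_, hB.ref, hB.sum, ?_, ?_, ?_, hb, hN.R0, hN.E0, ?_, ?_, ?_, ?_, hN.uniq⟩
  · refine (BHyp.rws hB).mono hB.ref.nonneg hr0 (fun i => ?_) (fun i => le_rfl) le_rfl
    have h1 : M i ≤ M i ^ 2 := by nlinarith [hM1 i]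
    exact div_le_div_of_nonneg_left (hB.t0 i).le (hM0 i) h1
  · intro i
    linarith [hM1 i]
  · intro i a hla
    have h1 := hB.g1_le i a hla
    linarith [hM0 i]
  · rw [Real.one_le_sqrt]
    push_cast
    linarith
  · intro i
    rw [hθ2]
    have h1 : 128 * (b : ℝ) ^ 2 * ((2 * M i) ^ 2 * (t i / M i ^ 2)) = b * (512 * b * t i) := by
      have h2 := (hM0 i).ne'
      field_simp
      ring
    rw [h1]
    have h2 : 512 * b * t i ≤ 1 := by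
      cases hi : sc i with
      | none => exact hN.t2 i hi
      | some j =>
        rw [hN.tj i j hi]
        have h3 := rate_le_one ((1 - G) * p) (ell j)
        have h4 : 512 * b * (rate ((1 - G) * p) (ell j) / Kf) ≤ 512 * b * (1 / Kf) := by gcongr
        refine h4.trans ?_
        rw [mul_one_div]
        exact div_le_one_of_le₀ hKf hKf0.le
    have h3 : (b : ℝ) * (512 * b * t i) ≤ b * 1 := mul_le_mul_of_nonneg_left h2 (by linarith)
    linarith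
  · intro i
    show R i * (b * √((b + 1 : ℕ) : ℝ)) ^ 2 ≤
      Real.exp (-(2 * (c1 + g) * el ell (sc i))) * (t i / M i ^ 2)
    cases hi : sc i with
    | some j =>
      rw [hN.tj i j hi, hN.Mj i j hi, el_some]
      exact low_leg (hN.ell0 j) hN.p0 hN.G0 hN.G1 (hN.top i j hi) hN.hc hb hKf0 hN.s0 hN.s1
        (hN.R1 i j hi)
    | none =>
      rw [el_none, mul_zero, neg_zero, Real.exp_zero, one_mul, mul_pow, hθ2,
        le_div_iff₀ (pow_pos (hM0 i) 2)]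
      refine le_trans ?_ (hN.Ro i hi)
      have h1 : (b : ℝ) ^ 2 * (b + 1) ≤ 2 * b ^ 3 := by nlinarith [sq_nonneg (b : ℝ)]
      have h2 := hN.R0 i
      calc R i * ((b : ℝ) ^ 2 * (b + 1)) * M i ^ 2
          ≤ R i * (2 * b ^ 3) * M i ^ 2 := by gcongr
        _ = _ := by ring
  · intro i
    show 128 * (b : ℝ) ^ 4 * (2 * M i) ^ 2 * E i ≤
      Real.exp (-(2 * (c1 + g) * el ell (sc i)))
    cases hi : sc i with
    | some j =>
      rw [hN.Mj i j hi, el_some]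
      exact low_legE (hN.ell0 j) hN.p0 hN.G0 hN.G1 (hN.top i j hi) hN.hc (by linarith) hN.s0
        hN.s1 (hN.E1 i j hi)
    | none =>
      rw [el_none, mul_zero, neg_zero, Real.exp_zero]
      have h1 : 128 * (b : ℝ) ^ 4 * (2 * M i) ^ 2 * E i = 512 * b ^ 4 * M i ^ 2 * E i := by ring
      rw [h1]
      exact hN.Eo i hi
  · intro i hi
    show 4 * (2 * M i) ^ 2 * (R i + E i) ≤ 1
    have h1 : 4 * (2 * M i) ^ 2 * (R i + E i) = 16 * M i ^ 2 * (R i + E i) := by ring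
    rw [h1]
    exact hN.root i hi

/-- **low types with the leg `o`, at a marginal law** -/
theorem rwO_low_sub {lam : ∀ i, V i → ℝ} {mu : (∀ i, V i) → ℝ} {t M : ι → ℝ} {L Λ ε e1 : ℝ}
    {b : ℕ} {sc : ι → Option J} {ell : J → ℝ} {g c1 p G h Kf σ : ℝ}
    (q : ι → Prop) [DecidablePred q] {t' R E : {i // q i} → ℝ}
    (hmu : IsLaw mu) (hR : Vale.Agent.P042.H742.Ref lam L)
    (hI : Vale.Agent.P042.H678.I1M lam M (b + 1) mu) (hM : ∀ i, 1 ≤ M i) (ht0' : ∀ i, 0 < t' i)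
    (ht' : ∀ i, t' i ≤ t i) (ht0 : ∀ i, 0 ≤ t i) (ht1 : ∀ i, t i ≤ 1) (hL : 0 ≤ L)
    (hΛ : ((b + 1 : ℕ) : ℝ) * (L + Real.log (Fintype.card {i // q i} * ((b + 1 : ℕ) : ℝ))) + 3
      ≤ Λ)
    (hmei : MEIK t ε e1 (Real.exp (6 * Λ)) mu) (hε : 0 ≤ ε) (he1 : 0 ≤ e1)
    (hs : 704 * ε * Λ ≤ 1)
    (hsm : ((b + 1 : ℕ) : ℝ) * (e1 + 6 * Λ * Real.exp (-(3 * Λ))) ≤ ε * Λ)
    (hN : LowN (fun i : {i // q i} => sc i) ell g c1 b p G h Kf σ t' (fun i => M i) R E) :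
    RwO (V := fun i : {i // q i} => V i) (lsub q lam) (msub q mu) (fun i => sc i) ell g c1 b R E
      (fun i => t' i / M i ^ 2) (fun i => 2 * M i) (√((b + 1 : ℕ) : ℝ)) L :=
  rwO_low (Vale.Agent.P042.H858.bhyp_sub q hmu hR hI hM ht0' ht' ht0 ht1 hL (by omega) hΛ hmei hε
    he1 hs hsm) hN

end Vale.Agent.P042.H742
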