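import Vale.Agent.P042.H742.Defs

/-!
# P042, block [B]: laws on replicas, slices

`rps mus` is the product of the laws `mus r` on `ι × Fin N`; `sl R r` the slice of a set of
coordinates.
-/

set_option autoImplicit false
set_option linter.unusedSectionVars false

namespace Vale.Agent.P042.H742

open Finset Vale.Agent.P042.H461 Vale.Agent.P042.H416
open Vale.Agent.P042.H779 (marg m1)

variable {ι : Type*} [Fintype ι] [DecidableEq ι] {V : ι → Type*} [∀ i, Fintype (V i)]
  [∀ i, DecidableEq (V i)] {N : ℕ}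

/-- the replica `r` of a point -/
def sly (y : ∀ p : ι × Fin N, V p.1) (r : Fin N) : ∀ i, V i := fun i => y (i, r)

/-- the slice of a set of coordinates -/
def sl (R : Finset (ι × Fin N)) (r : Fin N) : Finset ι := univ.filter fun i => (i, r) ∈ R

@[simp] theorem mem_sl {R : Finset (ι × Fin N)} {r : Fin N} {i : ι} :
    i ∈ sl R r ↔ (i, r) ∈ R := by simp [sl]

/-- product of laws on the replicas -/
def rps (mus : Fin N → (∀ i, V i) → ℝ) (y : ∀ p : ι × Fin N, V p.1) : ℝ :=
  ∏ r, mus r (sly y r)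

theorem rep_eq_rps (mu : (∀ i, V i) → ℝ) (N : ℕ) :
    (rep mu N : (∀ p : ι × Fin N, V p.1) → ℝ) = rps fun _ => mu := rfl

/-- curry -/
def cur : (∀ p : ι × Fin N, V p.1) ≃ (Fin N → ∀ i, V i) where
  toFun y r i := y (i, r)
  invFun z p := z p.2 p.1
  left_inv _ := rfl
  right_inv _ := rfl

theorem sum_cur (F : (Fin N → ∀ i, V i) → ℝ) :
    ∑ y : (∀ p : ι × Fin N, V p.1), F (fun r => sly y r) = ∑ z, F z :=
  Equiv.sum_comp (cur (ι := ι) (V := V) (N := N)) F

/-- product formula -/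
theorem sum_slices (F : Fin N → (∀ i, V i) → ℝ) :
    ∑ y : (∀ p : ι × Fin N, V p.1), ∏ r, F r (sly y r) = ∏ r, ∑ x, F r x := by
  rw [sum_cur (fun z => ∏ r, F r (z r)), Finset.prod_univ_sum, Fintype.piFinset_univ]

theorem forall_mem_slices {R : Finset (ι × Fin N)} {y z : ∀ p : ι × Fin N, V p.1} :
    (∀ p ∈ R, z p = y p) ↔ ∀ r, ∀ i ∈ sl R r, sly z r i = sly y r i := by
  constructor
  · intro h r i hi
    exact h (i, r) (mem_sl.1 hi)
  · rintro h ⟨i, r⟩ hp
    exact h r i (mem_sl.2 hp)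

theorem marg_rps (mus : Fin N → (∀ i, V i) → ℝ) (R : Finset (ι × Fin N))
    (y : ∀ p : ι × Fin N, V p.1) :
    marg (rps mus) R y = ∏ r, marg (mus r) (sl R r) (sly y r) := by
  unfold marg
  rw [← sum_slices (fun r x => if (∀ i ∈ sl R r, x i = sly y r i) then mus r x else 0)]
  refine Finset.sum_congr rfl fun z _ => ?_
  by_cases h : ∀ p ∈ R, z p = y p
  · rw [if_pos h]
    have h1 := forall_mem_slices.1 h
    unfold rps
    exact Finset.prod_congr rfl fun r _ => by rw [if_pos (h1 r)]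
  · rw [if_neg h]
    have h1 : ¬ ∀ r, ∀ i ∈ sl R r, sly z r i = sly y r i := fun h2 => h (forall_mem_slices.2 h2)
    push Not at h1
    obtain ⟨r, hr⟩ := h1
    refine (Finset.prod_eq_zero (Finset.mem_univ r) ?_).symm
    rw [if_neg]
    push Not
    exact hr

theorem rps_nonneg {mus : Fin N → (∀ i, V i) → ℝ} (h : ∀ r x, 0 ≤ mus r x)
    (y : ∀ p : ι × Fin N, V p.1) : 0 ≤ rps mus y :=
  Finset.prod_nonneg fun r _ => h r _

theorem isLaw_rps {mus : Fin N → (∀ i, V i) → ℝ} (h : ∀ r, IsLaw (mus r)) :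
    IsLaw (rps mus : (∀ p : ι × Fin N, V p.1) → ℝ) := by
  refine ⟨rps_nonneg fun r => (h r).1, ?_⟩
  unfold rps
  rw [sum_slices]
  exact Finset.prod_eq_one fun r _ => (h r).2

theorem isLaw_rep {mu : (∀ i, V i) → ℝ} (h : IsLaw mu) (N : ℕ) :
    IsLaw (rep mu N : (∀ p : ι × Fin N, V p.1) → ℝ) := by
  rw [rep_eq_rps]
  exact isLaw_rps fun _ => h

/-! ### sets of coordinates and their slices -/

/-- a set of coordinates is the family of its slices -/
def slE : Finset (ι × Fin N) ≃ (Fin N → Finset ι) where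
  toFun R r := sl R r
  invFun S := univ.filter fun p => p.1 ∈ S p.2
  left_inv R := by
    ext p
    simp
  right_inv S := by
    funext r
    ext i
    simp

theorem prod_slices {M : Type*} [CommMonoid M] (R : Finset (ι × Fin N)) (f : ι × Fin N → M) :
    ∏ p ∈ R, f p = ∏ r, ∏ i ∈ sl R r, f (i, r) := by
  have h1 : ∀ r : Fin N, ∏ i ∈ sl R r, f (i, r) = ∏ i, if (i, r) ∈ R then f (i, r) else 1 := by
    intro r
    unfold sl
    rw [Finset.prod_filter]
  rw [Finset.prod_congr rfl fun r _ => h1 r]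
  have h2 : ∏ p ∈ R, f p = ∏ p : ι × Fin N, if p ∈ R then f p else 1 := by
    rw [Finset.prod_ite_mem, Finset.univ_inter]
  rw [h2, Fintype.prod_prod_type, Finset.prod_comm]

theorem sum_slices' (R : Finset (ι × Fin N)) (f : ι × Fin N → ℕ) :
    ∑ p ∈ R, f p = ∑ r, ∑ i ∈ sl R r, f (i, r) := by
  have h1 : ∀ r : Fin N, ∑ i ∈ sl R r, f (i, r) = ∑ i, if (i, r) ∈ R then f (i, r) else 0 := by
    intro r
    unfold sl
    rw [Finset.sum_filter]
  rw [Finset.sum_congr rfl fun r _ => h1 r]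
  have h2 : ∑ p ∈ R, f p = ∑ p : ι × Fin N, if p ∈ R then f p else 0 := by
    rw [Finset.sum_ite_mem, Finset.univ_inter]
  rw [h2, Fintype.sum_prod_type, Finset.sum_comm]

theorem card_slices (R : Finset (ι × Fin N)) : R.card = ∑ r, (sl R r).card := by
  have h := sum_slices' R fun _ => 1
  simpa using h

theorem card_sl_le (R : Finset (ι × Fin N)) (r : Fin N) : (sl R r).card ≤ R.card := by
  rw [card_slices R]
  exact Finset.single_le_sum (f := fun r => (sl R r).card) (fun _ _ => Nat.zero_le _)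
    (Finset.mem_univ r)

theorem lw_slices (lam : ∀ i, V i → ℝ) (R : Finset (ι × Fin N)) (y : ∀ p : ι × Fin N, V p.1) :
    lw (rlam lam N) R y = ∏ r, lw lam (sl R r) (sly y r) := by
  unfold lw
  rw [prod_slices]
  rfl

theorem sl_compl (R : Finset (ι × Fin N)) (r : Fin N) : sl Rᶜ r = (sl R r)ᶜ := by
  ext i
  simp

theorem bw_slices (t : ι → ℝ) (R : Finset (ι × Fin N)) :
    bw (rt t N) R = ∏ r, bw t (sl R r) := by
  unfold bw
  rw [prod_slices, prod_slices, ← Finset.prod_mul_distrib]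
  refine Finset.prod_congr rfl fun r _ => ?_
  rw [sl_compl]
  rfl

/-- the Bernoulli average of a function of one slice -/
theorem sum_bw_slice (t : ι → ℝ) (r0 : Fin N) (f : Finset ι → ℝ) :
    ∑ R : Finset (ι × Fin N), bw (rt t N) R * f (sl R r0) = ∑ S : Finset ι, bw t S * f S := by
  have h1 : ∀ R : Finset (ι × Fin N), bw (rt t N) R * f (sl R r0) =
      ∏ r, (bw t (sl R r) * if r = r0 then f (sl R r) else 1) := by
    intro R
    rw [Finset.prod_mul_distrib, bw_slices, Finset.prod_ite_eq' univ r0 (fun r => f (sl R r)),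
      if_pos (Finset.mem_univ _)]
  rw [Finset.sum_congr rfl fun R _ => h1 R]
  have h2 : ∑ R : Finset (ι × Fin N), ∏ r, (bw t (sl R r) * if r = r0 then f (sl R r) else 1) =
      ∑ S : Fin N → Finset ι, ∏ r, (bw t (S r) * if r = r0 then f (S r) else 1) :=
    Equiv.sum_comp (slE (ι := ι) (N := N))
      (fun S => ∏ r, (bw t (S r) * if r = r0 then f (S r) else 1))
  rw [h2]
  have h3 := Finset.prod_univ_sum (fun _ : Fin N => (univ : Finset (Finset ι)))
    (fun r S => bw t S * if r = r0 then f S else 1)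
  rw [Fintype.piFinset_univ] at h3
  rw [← h3]
  have h4 : ∀ r : Fin N, ∑ S : Finset ι, bw t S * (if r = r0 then f S else 1) =
      if r = r0 then ∑ S : Finset ι, bw t S * f S else 1 := by
    intro r
    split_ifs with h
    · rfl
    · simp only [mul_one]
      exact sum_bw t
  rw [Finset.prod_congr rfl fun r _ => h4 r, Finset.prod_ite_eq' univ r0, if_pos (Finset.mem_univ _)]

/-- (I1) for the replicas -/
theorem I1.rep {lam : ∀ i, V i → ℝ} {M : ℝ} {D0 : ℕ} {mu : (∀ i, V i) → ℝ} (hmu : IsLaw mu)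
    (h : I1 lam M D0 mu) (N : ℕ) :
    I1 (rlam lam N) M D0 (rep mu N) := by
  intro A hA y
  rw [rep_eq_rps, marg_rps, lw_slices, card_slices, ← Finset.prod_pow_eq_pow_sum,
    ← Finset.prod_mul_distrib]
  refine Finset.prod_le_prod (fun r _ => ?_) fun r _ => h _ ((card_sl_le A r).trans hA) _
  unfold marg
  refine Finset.sum_nonneg fun x _ => ?_
  split_ifs
  · exact hmu.1 x
  · exact le_rfl

theorem Ref.rep {lam : ∀ i, V i → ℝ} {L : ℝ} (h : Ref lam L) (N : ℕ) : Ref (rlam lam N) L :=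
  ⟨fun p a => h.nonneg p.1 a, fun p => h.sum_one p.1, fun p a => h.atoms p.1 a⟩

theorem W_slices (lam : ∀ i, V i → ℝ) (y : ∀ p : ι × Fin N, V p.1) :
    W (rlam lam N) y = ∏ r, W lam (sly y r) := by
  unfold W
  rw [Fintype.prod_prod_type, Finset.prod_comm]
  rfl

end Vale.Agent.P042.H742
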