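import Vale.Agent.P042.H742.Slice

/-!
# P042, block [B]: relative entropies of restrictions, testing inequality
-/

set_option autoImplicit false
set_option linter.unusedSectionVars false

namespace Vale.Agent.P042.H742

open Finset Vale.Agent.P042.H461 Vale.Agent.P042.H416
open Vale.Agent.P042.H779 (marg m1)

variable {ι : Type*} [Fintype ι] [DecidableEq ι] {V : ι → Type*} [∀ i, Fintype (V i)]
  [∀ i, DecidableEq (V i)] {N : ℕ}

theorem rst_eq_iff {R : Finset ι} {x y : ∀ i, V i} :
    rst R x = rst R y ↔ ∀ i ∈ R, x i = y i := by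
  constructor
  · intro h i hi
    exact congrFun h ⟨i, hi⟩
  · intro h
    funext i
    exact h i.1 i.2

theorem push_rst (R : Finset ι) (nu : (∀ i, V i) → ℝ) (y : ∀ i, V i) :
    push (rst R) nu (rst R y) = marg nu R y := by
  unfold push marg
  rw [Finset.sum_filter]
  refine Finset.sum_congr rfl fun x _ => ?_
  by_cases h : ∀ i ∈ R, x i = y i
  · rw [if_pos h, if_pos (rst_eq_iff.2 h)]
  · rw [if_neg h, if_neg fun h1 => h (rst_eq_iff.1 h1)]

/-- the relative entropy of the restrictions, on the full space -/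
theorem KL_rst (R : Finset ι) (nu mu : (∀ i, V i) → ℝ) :
    KL (push (rst R) nu) (push (rst R) mu) =
      ∑ y, nu y * Real.log (marg nu R y / marg mu R y) := by
  unfold KL
  rw [sum_push (rst R) nu fun u => Real.log (push (rst R) nu u / push (rst R) mu u)]
  refine Finset.sum_congr rfl fun y _ => ?_
  rw [push_rst, push_rst]

theorem le_marg {nu : (∀ i, V i) → ℝ} (h : ∀ x, 0 ≤ nu x) (R : Finset ι) (y : ∀ i, V i) :
    nu y ≤ marg nu R y := by
  unfold marg
  have h1 := Finset.single_le_sum (f := fun x => if (∀ i ∈ R, x i = y i) then nu x else 0)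
    (fun x _ => by
      show 0 ≤ if (∀ i ∈ R, x i = y i) then nu x else 0
      split_ifs
      · exact h x
      · exact le_rfl) (Finset.mem_univ y)
  have h2 : (if (∀ i ∈ R, y i = y i) then nu y else 0) = nu y := if_pos fun i _ => rfl
  rw [← h2]
  exact h1

/-- the replica `0` carries all the relative entropy -/
theorem KL_rps {mu mu0 : (∀ i, V i) → ℝ} (hmu : IsLaw mu) {mus : Fin N → (∀ i, V i) → ℝ} {r0 : Fin N} (h0 : mus r0 = mu0)
    (h1 : ∀ r, r ≠ r0 → mus r = mu) (R : Finset (ι × Fin N)) :
    KL (push (rst R) (rps mus)) (push (rst R) (rep mu N)) =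
      KL (push (rst (sl R r0)) mu0) (push (rst (sl R r0)) mu) := by
  rw [KL_rst (ι := ι × Fin N) (V := fun p => V p.1) R, KL_rst]
  have hpos : ∀ (nu : (∀ i, V i) → ℝ), (∀ x, 0 ≤ nu x) → ∀ (S : Finset ι) (x : ∀ i, V i),
      nu x ≠ 0 → marg nu S x ≠ 0 := by
    intro nu hnu S x hx
    exact (lt_of_lt_of_le (lt_of_le_of_ne (hnu x) hx.symm) (le_marg hnu S x)).ne'
  have h2 : ∀ y : (∀ p : ι × Fin N, V p.1),
      rps mus y * Real.log (marg (rps mus) R y / marg (rep mu N) R y) =
      ∏ r, (mus r (sly y r) * if r = r0 then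
        Real.log (marg mu0 (sl R r0) (sly y r) / marg mu (sl R r0) (sly y r)) else 1) := by
    intro y
    rw [Finset.prod_mul_distrib, Finset.prod_ite_eq' univ r0, if_pos (Finset.mem_univ _)]
    change rps mus y * _ = rps mus y * _
    by_cases hy : rps mus y = 0
    · rw [hy, zero_mul, zero_mul]
    congr 1
    congr 1
    rw [rep_eq_rps, marg_rps, marg_rps, ← Finset.prod_div_distrib]
    have hy' : ∀ r, mus r (sly y r) ≠ 0 := fun r => Finset.prod_ne_zero_iff.1 hy r (Finset.mem_univ _)
    rw [Finset.prod_eq_single r0]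
    · rw [h0]
    · intro r _ hr
      rw [h1 r hr]
      refine div_self (hpos mu hmu.1 _ _ ?_)
      have := hy' r
      rwa [h1 r hr] at this
    · intro h
      exact absurd (Finset.mem_univ _) h
  rw [Finset.sum_congr rfl fun y _ => h2 y]
  rw [sum_slices (fun r x => mus r x * if r = r0 then
        Real.log (marg mu0 (sl R r0) x / marg mu (sl R r0) x) else 1)]
  rw [Finset.prod_eq_single r0]
  · rw [h0]
    simp only [if_true]
  · intro r _ hr
    simp only [if_neg hr, mul_one]
    rw [h1 r hr]
    exact hmu.2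
  · intro h
    exact absurd (Finset.mem_univ _) h

/-- the event `x_i = a` -/
def ev (i : ι) (a : V i) : Finset (∀ i, V i) := univ.filter fun x => x i = a

theorem sum_ev (i : ι) (a : V i) (F : (∀ i, V i) → ℝ) :
    ∑ x ∈ ev i a, F x = ∑ x, if x i = a then F x else 0 := by
  unfold ev
  rw [Finset.sum_filter]

theorem mass_ev (i : ι) (a : V i) (mu : (∀ i, V i) → ℝ) : ∑ x ∈ ev i a, mu x = m1 mu i a := by
  rw [sum_ev]
  rfl

/-- the pinned replica law -/
theorem res_rep {mu : (∀ i, V i) → ℝ} (hmu : IsLaw mu) (i : ι) (r0 : Fin N) (a : V i) :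
    res (ev (ι := ι × Fin N) (V := fun p => V p.1) (i, r0) a) (rep mu N) =
      rps fun r => if r = r0 then res (ev i a) mu else mu := by
  have hm : ∑ y ∈ ev (ι := ι × Fin N) (V := fun p => V p.1) (i, r0) a, rep mu N y =
      ∑ x ∈ ev i a, mu x := by
    rw [sum_ev, sum_ev]
    have h1 : ∀ y : (∀ p : ι × Fin N, V p.1), (if y (i, r0) = a then rep mu N y else 0) =
        ∏ r, (if r = r0 then (if sly y r i = a then mu (sly y r) else 0) else mu (sly y r)) := by
      intro y
      by_cases h : y (i, r0) = a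
      · rw [if_pos h, rep_eq_rps]
        refine Finset.prod_congr rfl fun r _ => ?_
        by_cases hr : r = r0
        · subst hr
          rw [if_pos rfl, if_pos (show sly y r i = a from h)]
        · rw [if_neg hr]
      · rw [if_neg h]
        refine (Finset.prod_eq_zero (Finset.mem_univ r0) ?_).symm
        rw [if_pos rfl, if_neg (show ¬ sly y r0 i = a from h)]
    rw [Finset.sum_congr rfl fun y _ => h1 y]
    rw [sum_slices (fun r x => if r = r0 then (if x i = a then mu x else 0) else mu x)]
    rw [Finset.prod_eq_single r0]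
    · simp only [if_true]
    · intro r _ hr
      simp only [if_neg hr]
      exact hmu.2
    · intro h
      exact absurd (Finset.mem_univ _) h
  funext y
  have hm' : res (ev (ι := ι × Fin N) (V := fun p => V p.1) (i, r0) a) (rep mu N) y =
      if y ∈ ev (ι := ι × Fin N) (V := fun p => V p.1) (i, r0) a then
        rep mu N y / ∑ x ∈ ev i a, mu x else 0 := by
    unfold res
    rw [hm]
  rw [hm']
  have hmem : y ∈ ev (ι := ι × Fin N) (V := fun p => V p.1) (i, r0) a ↔ sly y r0 ∈ ev i a := by
    unfold ev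
    simp only [Finset.mem_filter, Finset.mem_univ, true_and]
    rfl
  have hrest : ∏ r ∈ univ.erase r0, (if r = r0 then res (ev i a) mu else mu) (sly y r) =
      ∏ r ∈ univ.erase r0, mu (sly y r) :=
    Finset.prod_congr rfl fun r hr => by rw [if_neg (Finset.ne_of_mem_erase hr)]
  have hrps : rps (fun r => if r = r0 then res (ev i a) mu else mu) y =
      res (ev i a) mu (sly y r0) * ∏ r ∈ univ.erase r0, mu (sly y r) := by
    unfold rps
    rw [← Finset.mul_prod_erase univ _ (Finset.mem_univ r0), hrest]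
    simp only [if_true]
  have hrep : rep mu N y = mu (sly y r0) * ∏ r ∈ univ.erase r0, mu (sly y r) := by
    rw [rep_eq_rps]
    unfold rps
    rw [← Finset.mul_prod_erase univ _ (Finset.mem_univ r0)]
  rw [hrps, hrep]
  unfold res
  by_cases h : sly y r0 ∈ ev i a
  · rw [if_pos h, if_pos (hmem.2 h)]
    ring
  · rw [if_neg h, if_neg fun h1 => h (hmem.1 h1)]
    ring

/-- the entropy of testing: `I_{i,a}` -/
noncomputable def Iia (t : ι → ℝ) (mu : (∀ i, V i) → ℝ) (i : ι) (a : V i) : ℝ :=
  ∑ R : Finset ι, bw t R * KL (push (rst R) (res (ev i a) mu)) (push (rst R) mu)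

theorem Iia_rep (t : ι → ℝ) {mu : (∀ i, V i) → ℝ} (hmu : IsLaw mu) {i : ι} {a : V i}
    (ha : 0 < m1 mu i a) (r0 : Fin N) :
    Iia (rt t N) (rep mu N) (ι := ι × Fin N) (V := fun p => V p.1) (i, r0) a = Iia t mu i a := by
  unfold Iia
  rw [res_rep hmu]
  have ha' : 0 < ∑ x ∈ ev i a, mu x := by rw [mass_ev]; exact ha
  have h1 : ∀ R : Finset (ι × Fin N), KL (push (rst R) (rps fun r => if r = r0 then
      res (ev i a) mu else mu)) (push (rst R) (rep mu N)) =
      KL (push (rst (sl R r0)) (res (ev i a) mu)) (push (rst (sl R r0)) mu) := by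
    intro R
    exact KL_rps hmu (if_pos rfl) (fun r hr => if_neg hr) R
  rw [Finset.sum_congr rfl fun R _ => by rw [h1 R]]
  exact sum_bw_slice t r0 fun S => KL (push (rst S) (res (ev i a) mu)) (push (rst S) mu)

end Vale.Agent.P042.H742
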